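import Mathlib

/-!
`ℓ_p` norms of real functions on a finite type.
-/

open Finset

namespace Vale.Agent.P249B

variable {ι : Type*} [Fintype ι] {p : ℝ}

/-- `(∑ |v|^p)^{1/p}` -/
noncomputable def lp (p : ℝ) (v : ι → ℝ) : ℝ := (∑ i, |v i| ^ p) ^ (1 / p)

lemma sum_pow_nonneg (p : ℝ) (v : ι → ℝ) : 0 ≤ ∑ i, |v i| ^ p :=
  Finset.sum_nonneg fun _ _ => Real.rpow_nonneg (abs_nonneg _) _

lemma lp_nonneg (p : ℝ) (v : ι → ℝ) : 0 ≤ lp p v := Real.rpow_nonneg (sum_pow_nonneg p v) _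

lemma lp_rpow (hp : 0 < p) (v : ι → ℝ) : lp p v ^ p = ∑ i, |v i| ^ p := by
  unfold lp
  rw [← Real.rpow_mul (sum_pow_nonneg p v), one_div, inv_mul_cancel₀ hp.ne', Real.rpow_one]

lemma lp_le_iff (hp : 0 < p) (v : ι → ℝ) {r : ℝ} (hr : 0 ≤ r) :
    lp p v ≤ r ↔ ∑ i, |v i| ^ p ≤ r ^ p := by
  rw [← lp_rpow hp, Real.rpow_le_rpow_iff (lp_nonneg p v) hr hp]

lemma le_lp_iff (hp : 0 < p) (v : ι → ℝ) {r : ℝ} (hr : 0 ≤ r) :
    r ≤ lp p v ↔ r ^ p ≤ ∑ i, |v i| ^ p := by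
  rw [← lp_rpow hp, Real.rpow_le_rpow_iff hr (lp_nonneg p v) hp]

lemma lp_mono (hp : 0 < p) {v w : ι → ℝ} (h : ∀ i, |v i| ≤ |w i|) : lp p v ≤ lp p w := by
  rw [lp_le_iff hp _ (lp_nonneg p w), lp_rpow hp]
  exact Finset.sum_le_sum fun i _ => Real.rpow_le_rpow (abs_nonneg _) (h i) hp.le

lemma abs_le_lp (hp : 0 < p) (v : ι → ℝ) (i : ι) : |v i| ≤ lp p v := by
  rw [le_lp_iff hp _ (abs_nonneg _)]
  exact Finset.single_le_sum (f := fun i => |v i| ^ p)
    (fun _ _ => Real.rpow_nonneg (abs_nonneg _) _) (mem_univ i)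

lemma lp_add_le (hp : 1 ≤ p) (v w : ι → ℝ) : lp p (fun i => v i + w i) ≤ lp p v + lp p w :=
  Real.Lp_add_le Finset.univ v w hp

lemma lp_neg (v : ι → ℝ) : lp p (fun i => -v i) = lp p v := by
  unfold lp; simp

lemma lp_sub_comm (v w : ι → ℝ) : lp p (fun i => v i - w i) = lp p (fun i => w i - v i) := by
  unfold lp
  congr 1
  exact Finset.sum_congr rfl fun i _ => by rw [abs_sub_comm]

lemma lp_zero (hp : 0 < p) : lp p (fun _ : ι => (0:ℝ)) = 0 := by
  unfold lp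
  simp [Real.zero_rpow hp.ne', Real.zero_rpow (inv_ne_zero hp.ne')]

lemma lp_smul (hp : 0 < p) (c : ℝ) (v : ι → ℝ) : lp p (fun i => c * v i) = |c| * lp p v := by
  unfold lp
  have : ∀ i, |c * v i| ^ p = |c| ^ p * |v i| ^ p := fun i => by
    rw [abs_mul, Real.mul_rpow (abs_nonneg _) (abs_nonneg _)]
  simp_rw [this]
  rw [← Finset.mul_sum, Real.mul_rpow (Real.rpow_nonneg (abs_nonneg _) _) (sum_pow_nonneg p v),
    ← Real.rpow_mul (abs_nonneg _), mul_one_div_cancel hp.ne', Real.rpow_one]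

lemma lp_tri (hp : 1 ≤ p) (u v w : ι → ℝ) :
    lp p (fun i => u i - w i) ≤ lp p (fun i => u i - v i) + lp p (fun i => v i - w i) := by
  have h := lp_add_le hp (fun i => u i - v i) (fun i => v i - w i)
  simpa using h

lemma lp_sub_le (hp : 1 ≤ p) (v w : ι → ℝ) : lp p (fun i => v i - w i) ≤ lp p v + lp p w := by
  have h := lp_add_le hp v (fun i => -w i)
  rw [lp_neg] at h
  simpa [sub_eq_add_neg] using h

lemma abs_lp_sub_le (hp : 1 ≤ p) (v w : ι → ℝ) :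
    |lp p v - lp p w| ≤ lp p (fun i => v i - w i) := by
  have h1 := lp_add_le hp w (fun i => v i - w i)
  have h2 := lp_add_le hp v (fun i => w i - v i)
  rw [lp_sub_comm w v] at h2
  simp only [add_sub_cancel] at h1 h2
  have e1 : lp p (fun i => v i) = lp p v := rfl
  have e2 : lp p (fun i => w i) = lp p w := rfl
  rw [abs_le]
  constructor <;> linarith

/-- number of maps with prescribed values on `S` -/
lemma sum_indicator {Ω β : Type*} [Fintype Ω] [DecidableEq Ω] [Fintype β] [DecidableEq β]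
    (b0 : β) (S : Finset Ω) :
    (∑ h : Ω → β, if ∀ ω ∈ S, h ω = b0 then (1:ℝ) else 0) * (Fintype.card β : ℝ) ^ S.card =
      (Fintype.card (Ω → β) : ℝ) := by
  have h1 : ∀ h : Ω → β, (if ∀ ω ∈ S, h ω = b0 then (1:ℝ) else 0) =
      ∏ ω, (if ω ∈ S then (if h ω = b0 then (1:ℝ) else 0) else 1) := by
    intro h
    by_cases hh : ∀ ω ∈ S, h ω = b0
    · rw [if_pos hh, Finset.prod_eq_one]
      intro ω _
      by_cases hω : ω ∈ S
      · rw [if_pos hω, if_pos (hh ω hω)]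
      · rw [if_neg hω]
    · rw [if_neg hh]
      push Not at hh
      obtain ⟨ω, hω, hne⟩ := hh
      rw [Finset.prod_eq_zero (mem_univ ω)]
      rw [if_pos hω, if_neg hne]
  simp_rw [h1]
  have h2 := (Finset.prod_univ_sum (fun _ : Ω => (Finset.univ : Finset β))
    (fun ω b => (if ω ∈ S then (if b = b0 then (1:ℝ) else 0) else 1)))
  rw [Fintype.piFinset_univ] at h2
  rw [← h2]
  have h3 : (Fintype.card β : ℝ) ^ S.card = ∏ ω : Ω, (if ω ∈ S then (Fintype.card β : ℝ) else 1) := by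
    rw [Finset.prod_ite_mem, Finset.univ_inter, Finset.prod_const]
  rw [h3, ← Finset.prod_mul_distrib, Fintype.card_fun, Nat.cast_pow]
  rw [← Finset.card_univ (α := Ω), ← Finset.prod_const]
  refine Finset.prod_congr rfl fun ω _ => ?_
  by_cases hω : ω ∈ S
  · simp [hω]
  · simp [hω]

end Vale.Agent.P249B
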