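import Mathlib

/-!
# Caratheodory for finite `L_p` metrics
-/

namespace Vale.Agent.P249B

theorem caratheodory_lp {p : ℝ} (hp : 1 ≤ p) {n : ℕ} {ι : Type*} [Fintype ι]
    (F : Fin n → ι → ℝ) : ∃ G : Fin n → Fin (n ^ 2 + 1) → ℝ,
      ∀ i j, ∑ k, |G i k - G j k| ^ p = ∑ a, |F i a - F j a| ^ p := by
  have hp0 : p ≠ 0 := by linarith
  rcases isEmpty_or_nonempty ι with hι | hι
  · refine ⟨fun _ _ => 0, fun i j => ?_⟩
    simp [Real.zero_rpow hp0]
  set c : ℝ := (Fintype.card ι : ℝ) with hc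
  have hc0 : 0 < c := by rw [hc]; exact_mod_cast Fintype.card_pos
  set v : ι → (Fin n × Fin n → ℝ) := fun a q => |F q.1 a - F q.2 a| ^ p with hv
  have hx : ∑ a, c⁻¹ • v a ∈ convexHull ℝ (Set.range v) := by
    apply (convex_convexHull ℝ (Set.range v)).sum_mem
    · intro a _; positivity
    · simp [hc]
    · intro a _; exact subset_convexHull ℝ _ ⟨a, rfl⟩
  obtain ⟨κ, hκ, z, w, hz, hind, hw, -, hsum⟩ := eq_pos_convex_span_of_mem_convexHull hx
  have hcard : Fintype.card κ ≤ n ^ 2 + 1 := by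
    have h1 := hind.card_le_finrank_succ
    have h2 : Module.finrank ℝ (vectorSpan ℝ (Set.range z)) ≤
        Module.finrank ℝ (Fin n × Fin n → ℝ) := Submodule.finrank_le _
    rw [Module.finrank_fintype_fun_eq_card, Fintype.card_prod, Fintype.card_fin] at h2
    have h3 : n ^ 2 = n * n := sq n
    omega
  have hch : ∀ t, ∃ a, v a = z t := fun t => hz ⟨t, rfl⟩
  choose a ha using hch
  have hemb : Nonempty (κ ↪ Fin (n ^ 2 + 1)) :=
    Function.Embedding.nonempty_of_card_le (by rw [Fintype.card_fin]; exact hcard)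
  obtain ⟨e⟩ := hemb
  refine ⟨fun i => Function.extend e (fun t => (c * w t) ^ (1 / p) * F i (a t)) 0, fun i j => ?_⟩
  have key : ∀ t, c * (w t * z t (i, j)) =
      |Function.extend e (fun t => (c * w t) ^ (1 / p) * F i (a t)) 0 (e t) -
        Function.extend e (fun t => (c * w t) ^ (1 / p) * F j (a t)) 0 (e t)| ^ p := by
    intro t
    rw [e.injective.extend_apply, e.injective.extend_apply, ← mul_sub, abs_mul,
      Real.mul_rpow (abs_nonneg _) (abs_nonneg _)]
    have h1 : 0 ≤ c * w t := (mul_pos hc0 (hw t)).le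
    rw [abs_of_nonneg (Real.rpow_nonneg h1 _), ← Real.rpow_mul h1, one_div,
      inv_mul_cancel₀ hp0, Real.rpow_one, ← ha t, mul_assoc]
  have h2 : ∑ t, c * (w t * z t (i, j)) =
      ∑ k, |Function.extend e (fun t => (c * w t) ^ (1 / p) * F i (a t)) 0 k -
        Function.extend e (fun t => (c * w t) ^ (1 / p) * F j (a t)) 0 k| ^ p := by
    apply Fintype.sum_of_injective e e.injective
    · intro k hk
      have h3 : ¬ ∃ t, e t = k := hk
      rw [Function.extend_apply' _ _ _ h3, Function.extend_apply' _ _ _ h3]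
      simp [Real.zero_rpow hp0]
    · exact key
  rw [← h2, ← Finset.mul_sum]
  have h3 := congrFun hsum (i, j)
  simp only [Finset.sum_apply, Pi.smul_apply, smul_eq_mul] at h3
  rw [h3, ← Finset.mul_sum, ← mul_assoc, mul_inv_cancel₀ hc0.ne', one_mul]

end Vale.Agent.P249B
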