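import Mathlib
import Vale.Agent.Lib.P249B.Basic

/-!
Summing the maps of one residue class of scales.
-/

open Finset

namespace Vale.Agent.P249B

lemma geom_sum_le {P : ℝ} (hP : 2 ≤ P) (S : Finset ℤ) :
    ∀ q0 : ℤ, (∀ q ∈ S, q ≤ q0) → ∑ q ∈ S, P ^ q ≤ 2 * P ^ q0 := by
  have hP0 : 0 < P := by linarith
  induction S using Finset.induction_on_max with
  | empty =>
    intro q0 _
    rw [Finset.sum_empty]
    positivity
  | insert a S hS ih =>
    intro q0 hq0
    have ha : a ∉ S := fun h => lt_irrefl _ (hS a h)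
    rw [Finset.sum_insert ha]
    have h1 := ih (a - 1) (fun q hq => by have := hS q hq; omega)
    have h2 : a ≤ q0 := hq0 a (Finset.mem_insert_self a S)
    have h3 : P ^ a ≤ P ^ q0 := zpow_le_zpow_right₀ (by linarith) h2
    have h4 : P ^ (a - 1) * P = P ^ a := by
      rw [zpow_sub_one₀ hP0.ne']; field_simp
    have h5 : 0 < P ^ (a - 1) := by positivity
    nlinarith

section

variable {ι : Type*} [Fintype ι] {p : ℝ}

lemma lp_sum_le (hp : 1 ≤ p) {α : Type*} [DecidableEq α] (S : Finset α) (v : α → ι → ℝ) :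
    lp p (fun i => ∑ q ∈ S, v q i) ≤ ∑ q ∈ S, lp p (v q) := by
  induction S using Finset.induction_on with
  | empty =>
    simp only [Finset.sum_empty]
    rw [lp_zero (by linarith)]
  | insert a S ha ih =>
    rw [Finset.sum_insert ha]
    have h1 := lp_add_le hp (v a) (fun i => ∑ q ∈ S, v q i)
    have h2 : (fun i => ∑ q ∈ insert a S, v q i) = fun i => v a i + ∑ q ∈ S, v q i := by
      funext i; rw [Finset.sum_insert ha]
    rw [h2]
    linarith

lemma class_upper (hp : 1 ≤ p) (v : ℤ → ι → ℝ) {d C1 B A P W : ℝ} (hd : 0 ≤ d) (hC1 : 0 ≤ C1)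
    (hB : 0 ≤ B) (hA : 0 < A) (hP : 2 ≤ P) (hPW : 2 * B * W ≤ P)
    (h1 : ∀ q, lp p (v q) ≤ C1 * d) (h2 : ∀ q, lp p (v q) ≤ C1 * (B * (A * P ^ q)))
    (h3 : ∀ q, W * d < A * P ^ q → lp p (v q) = 0) (S : Finset ℤ) :
    lp p (fun i => ∑ q ∈ S, v q i) ≤ 2 * C1 * d := by
  have hP0 : 0 < P := by linarith
  refine (lp_sum_le hp S v).trans ?_
  set S' := S.filter (fun q => A * P ^ q ≤ W * d) with hS'
  have e1 : ∑ q ∈ S, lp p (v q) = ∑ q ∈ S', lp p (v q) := by
    rw [hS']
    symm
    apply Finset.sum_filter_of_ne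
    intro q _ hne
    by_contra hcon
    push Not at hcon
    exact hne (h3 q hcon)
  rw [e1]
  rcases S'.eq_empty_or_nonempty with h0 | hne
  · rw [h0, Finset.sum_empty]; positivity
  · set q0 := S'.max' hne with hq0
    have hq0m : q0 ∈ S' := Finset.max'_mem S' hne
    have hq0s : A * P ^ q0 ≤ W * d := (Finset.mem_filter.1 hq0m).2
    rw [← Finset.add_sum_erase S' _ hq0m]
    have h4 : ∑ q ∈ S'.erase q0, lp p (v q) ≤ C1 * d := by
      calc ∑ q ∈ S'.erase q0, lp p (v q)
          ≤ ∑ q ∈ S'.erase q0, C1 * (B * (A * P ^ q)) := Finset.sum_le_sum fun q _ => h2 q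
        _ = C1 * B * A * ∑ q ∈ S'.erase q0, P ^ q := by
            rw [Finset.mul_sum]
            exact Finset.sum_congr rfl fun q _ => by ring
        _ ≤ C1 * B * A * (2 * P ^ (q0 - 1)) := by
            apply mul_le_mul_of_nonneg_left _ (by positivity)
            apply geom_sum_le hP
            intro q hq
            have h5 := Finset.mem_erase.1 hq
            have h6 : q ≤ q0 := Finset.le_max' S' q h5.2
            have h7 := h5.1
            omega
        _ ≤ C1 * d := by
            have h5 : P ^ (q0 - 1) = P ^ q0 / P := by rw [zpow_sub_one₀ hP0.ne']; rfl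
            rw [h5]
            have h6 : C1 * B * A * (2 * (P ^ q0 / P)) = C1 * (2 * B * (A * P ^ q0) / P) := by ring
            rw [h6]
            apply mul_le_mul_of_nonneg_left _ hC1
            rw [div_le_iff₀ hP0]
            calc 2 * B * (A * P ^ q0) ≤ 2 * B * (W * d) :=
                  mul_le_mul_of_nonneg_left hq0s (by positivity)
              _ = (2 * B * W) * d := by ring
              _ ≤ P * d := mul_le_mul_of_nonneg_right hPW hd
              _ = d * P := by ring
    have h5 := h1 q0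
    linarith

lemma class_lower (hp : 1 ≤ p) (v : ℤ → ι → ℝ) {d C1 B A P W c : ℝ} (hC1 : 0 ≤ C1)
    (hB : 0 ≤ B) (hA : 0 < A) (hP : 2 ≤ P) (hc : 0 ≤ c)
    (h2 : ∀ q, lp p (v q) ≤ C1 * (B * (A * P ^ q)))
    (h3 : ∀ q, W * d < A * P ^ q → lp p (v q) = 0) (S : Finset ℤ) (q1 : ℤ) (hq1 : q1 ∈ S)
    (hs : A * P ^ q1 ≤ d) (hWs : W * d < P * (A * P ^ q1)) (hPc : 2 * C1 * B ≤ c * P)
    (hv : 2 * c * d ≤ lp p (v q1)) :
    c * d ≤ lp p (fun i => ∑ q ∈ S, v q i) := by
  have hP0 : 0 < P := by linarith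
  have hsum : (fun i => ∑ q ∈ S, v q i) = fun i => v q1 i + ∑ q ∈ S.erase q1, v q i := by
    funext i
    exact (Finset.add_sum_erase S (fun q => v q i) hq1).symm
  have h4 : lp p (v q1) ≤ lp p (fun i => ∑ q ∈ S, v q i) +
      lp p (fun i => ∑ q ∈ S.erase q1, v q i) := by
    have h5 := lp_sub_le hp (fun i => ∑ q ∈ S, v q i) (fun i => ∑ q ∈ S.erase q1, v q i)
    have h6 : (fun i => ∑ q ∈ S, v q i - ∑ q ∈ S.erase q1, v q i) = v q1 := by
      funext i
      have h6 : ∑ q ∈ S, v q i = v q1 i + ∑ q ∈ S.erase q1, v q i := congrFun hsum i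
      rw [h6]; ring
    rw [h6] at h5
    exact h5
  have h5 : lp p (fun i => ∑ q ∈ S.erase q1, v q i) ≤ c * d := by
    refine (lp_sum_le hp _ v).trans ?_
    have e1 : ∑ q ∈ S.erase q1, lp p (v q) =
        ∑ q ∈ (S.erase q1).filter (fun q => q ≤ q1 - 1), lp p (v q) := by
      symm
      apply Finset.sum_filter_of_ne
      intro q hq hne
      by_contra hcon
      push Not at hcon
      apply hne
      apply h3 q
      have hq2 := (Finset.mem_erase.1 hq).1
      have h6 : q1 + 1 ≤ q := by omega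
      have h7 : P ^ (q1 + 1) ≤ P ^ q := zpow_le_zpow_right₀ (by linarith) h6
      have h8 : P ^ (q1 + 1) = P ^ q1 * P := zpow_add_one₀ hP0.ne' q1
      calc W * d < P * (A * P ^ q1) := hWs
        _ = A * P ^ (q1 + 1) := by rw [h8]; ring
        _ ≤ _ := mul_le_mul_of_nonneg_left h7 hA.le
    rw [e1]
    calc ∑ q ∈ (S.erase q1).filter (fun q => q ≤ q1 - 1), lp p (v q)
        ≤ ∑ q ∈ (S.erase q1).filter (fun q => q ≤ q1 - 1), C1 * (B * (A * P ^ q)) :=
          Finset.sum_le_sum fun q _ => h2 q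
      _ = C1 * B * A * ∑ q ∈ (S.erase q1).filter (fun q => q ≤ q1 - 1), P ^ q := by
          rw [Finset.mul_sum]
          exact Finset.sum_congr rfl fun q _ => by ring
      _ ≤ C1 * B * A * (2 * P ^ (q1 - 1)) := by
          apply mul_le_mul_of_nonneg_left _ (by positivity)
          apply geom_sum_le hP
          intro q hq
          exact (Finset.mem_filter.1 hq).2
      _ ≤ c * d := by
          have h6 : P ^ (q1 - 1) = P ^ q1 / P := by rw [zpow_sub_one₀ hP0.ne']; rfl
          rw [h6]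
          have h7 : C1 * B * A * (2 * (P ^ q1 / P)) = (2 * C1 * B) * (A * P ^ q1) / P := by ring
          rw [h7, div_le_iff₀ hP0]
          have h8 : 0 ≤ A * P ^ q1 := by positivity
          calc (2 * C1 * B) * (A * P ^ q1) ≤ (c * P) * (A * P ^ q1) :=
                mul_le_mul_of_nonneg_right hPc h8
            _ ≤ (c * P) * d := mul_le_mul_of_nonneg_left hs (by positivity)
            _ = c * d * P := by ring
  linarith

end

end Vale.Agent.P249B
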