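import Mathlib

/-!
# P249: contraction of the small gaps of a real function on a finite set
-/

namespace Vale.Agent.P249B

open MeasureTheory Set

theorem exists_gap {X : Type*} [Fintype X] (f : X → ℝ) {θ : ℝ} (hθ : 0 < θ) :
    ∃ g : X → ℝ, (∀ x y, |g x - g y| ≤ |f x - f y|) ∧
      (∀ x y, |f x - f y| < θ → g x = g y) ∧
      (∀ x y, |(f x - f y) - (g x - g y)| ≤ Fintype.card X * θ) := by
  classical
  set U : Set ℝ := ⋃ y : X, Ico (f y) (f y + θ) with hU
  have hUm : MeasurableSet U := MeasurableSet.iUnion fun _ => measurableSet_Ico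
  have hUfin : volume U ≠ ⊤ := by
    refine ne_top_of_le_ne_top ?_ (measure_iUnion_fintype_le volume _)
    refine ENNReal.sum_ne_top.2 fun y _ => ?_
    rw [Real.volume_Ico]; exact ENNReal.ofReal_ne_top
  have hUle : volume.real U ≤ Fintype.card X * θ := by
    refine (measureReal_iUnion_fintype_le _).trans ?_
    have : ∀ y : X, volume.real (Ico (f y) (f y + θ)) = θ := by
      intro y
      rw [Real.volume_real_Ico_of_le (by linarith)]
      ring
    simp [this]
  set h : ℝ → ℝ := fun t => volume.real (U ∩ Iic t) with hh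
  have hfin : ∀ t, volume (U ∩ Iic t) ≠ ⊤ := fun t =>
    ne_top_of_le_ne_top hUfin (measure_mono inter_subset_left)
  have hfin' : ∀ s t, volume (U ∩ Ioc s t) ≠ ⊤ := fun s t =>
    ne_top_of_le_ne_top hUfin (measure_mono inter_subset_left)
  have key : ∀ s t, s ≤ t → h t = h s + volume.real (U ∩ Ioc s t) := by
    intro s t hst
    simp only [hh]
    rw [← measureReal_union _ (hUm.inter measurableSet_Ioc) (hfin s) (hfin' s t)]
    · congr 1
      rw [← inter_union_distrib_left, Iic_union_Ioc_eq_Iic hst]
    · refine Disjoint.mono inter_subset_right inter_subset_right ?_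
      rw [Set.disjoint_left]
      intro z hz hz'
      exact absurd hz'.1 (not_lt.2 hz)
  have hle1 : ∀ s t, s ≤ t → volume.real (U ∩ Ioc s t) ≤ t - s := by
    intro s t hst
    rw [← Real.volume_real_Ioc_of_le hst]
    exact measureReal_mono inter_subset_right (by rw [Real.volume_Ioc]; exact ENNReal.ofReal_ne_top)
  have hle2 : ∀ s t, volume.real (U ∩ Ioc s t) ≤ Fintype.card X * θ := by
    intro s t
    exact (measureReal_mono inter_subset_left hUfin).trans hUle
  have hnn : ∀ s t, 0 ≤ volume.real (U ∩ Ioc s t) := fun s t => measureReal_nonneg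
  -- the ordered version of all statements
  have ord : ∀ x y, f x ≤ f y →
      (|(f x - h (f x)) - (f y - h (f y))| ≤ |f x - f y|) ∧
      (|f x - f y| < θ → f x - h (f x) = f y - h (f y)) ∧
      (|(f x - f y) - ((f x - h (f x)) - (f y - h (f y)))| ≤ Fintype.card X * θ) := by
    intro x y hxy
    have h1 := key (f x) (f y) hxy
    have h2 := hle1 (f x) (f y) hxy
    have h3 := hle2 (f x) (f y)
    have h4 := hnn (f x) (f y)
    refine ⟨?_, ?_, ?_⟩
    · rw [abs_of_nonpos (by linarith : f x - f y ≤ 0), abs_le]
      constructor <;> linarith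
    · intro hlt
      rw [abs_of_nonpos (by linarith : f x - f y ≤ 0)] at hlt
      have h5 : U ∩ Ioc (f x) (f y) = Ioc (f x) (f y) := by
        refine inter_eq_right.2 fun z hz => ?_
        rw [hU, mem_iUnion]
        exact ⟨x, hz.1.le, by linarith [hz.2]⟩
      rw [h5, Real.volume_real_Ioc_of_le hxy] at h1
      linarith
    · have h6 : (f x - f y) - ((f x - h (f x)) - (f y - h (f y)))
          = -volume.real (U ∩ Ioc (f x) (f y)) := by linarith
      rw [h6, abs_neg, abs_of_nonneg h4]
      exact h3
  refine ⟨fun x => f x - h (f x), ?_, ?_, ?_⟩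
  · intro x y
    rcases le_total (f x) (f y) with hxy | hxy
    · exact (ord x y hxy).1
    · have := (ord y x hxy).1
      rw [abs_sub_comm, abs_sub_comm (f x)]
      exact this
  · intro x y hlt
    rcases le_total (f x) (f y) with hxy | hxy
    · exact (ord x y hxy).2.1 hlt
    · rw [abs_sub_comm] at hlt
      exact ((ord y x hxy).2.1 hlt).symm
  · intro x y
    rcases le_total (f x) (f y) with hxy | hxy
    · exact (ord x y hxy).2.2
    · have := (ord y x hxy).2.2
      have e : (f x - f y) - ((f x - h (f x)) - (f y - h (f y)))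
          = -((f y - f x) - ((f y - h (f y)) - (f x - h (f x)))) := by ring
      rw [e, abs_neg]
      exact this

end Vale.Agent.P249B
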