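import Mathlib

/-!
Smoothing kernel on a finite pseudometric space, averaged over `T` dyadic temperatures.
-/

open Finset

namespace Vale.Agent.P249B

/-- a real valued pseudodistance -/
structure PseudoD {X : Type*} (ρ : X → X → ℝ) : Prop where
  self : ∀ x, ρ x x = 0
  symm : ∀ x y, ρ x y = ρ y x
  tri : ∀ x y z, ρ x z ≤ ρ x y + ρ y z

section

variable {X : Type*} {ρ : X → X → ℝ}

lemma PseudoD.nonneg (h : PseudoD ρ) (x y : X) : 0 ≤ ρ x y := by
  have h1 := h.tri x y x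
  rw [h.self, h.symm y x] at h1
  linarith

variable [Fintype X]

/-- partition function -/
noncomputable def Zf (ρ : X → X → ℝ) (s : ℝ) (x : X) : ℝ := ∑ y, Real.exp (-(ρ x y) / s)

/-- Gibbs kernel -/
noncomputable def kf (ρ : X → X → ℝ) (s : ℝ) (x y : X) : ℝ := Real.exp (-(ρ x y) / s) / Zf ρ s x

/-- mean distance -/
noncomputable def Af (ρ : X → X → ℝ) (s : ℝ) (x : X) : ℝ := ∑ y, kf ρ s x y * ρ x y

lemma Zf_pos (ρ : X → X → ℝ) (s : ℝ) (x : X) : 0 < Zf ρ s x :=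
  Finset.sum_pos (fun _ _ => Real.exp_pos _) ⟨x, mem_univ x⟩

lemma one_le_Zf (h : PseudoD ρ) (s : ℝ) (x : X) : 1 ≤ Zf ρ s x := by
  have h1 : Real.exp (-(ρ x x) / s) ≤ Zf ρ s x :=
    Finset.single_le_sum (f := fun y => Real.exp (-(ρ x y) / s))
      (fun _ _ => (Real.exp_pos _).le) (mem_univ x)
  rw [h.self] at h1
  simpa using h1

lemma Zf_le (h : PseudoD ρ) {s : ℝ} (hs : 0 < s) (x : X) : Zf ρ s x ≤ Fintype.card X := by
  unfold Zf
  calc ∑ y, Real.exp (-(ρ x y) / s) ≤ ∑ _y : X, (1:ℝ) := by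
        refine Finset.sum_le_sum fun y _ => ?_
        rw [Real.exp_le_one_iff]
        have := h.nonneg x y
        exact div_nonpos_of_nonpos_of_nonneg (by linarith) hs.le
    _ = Fintype.card X := by simp

lemma kf_nonneg (ρ : X → X → ℝ) (s : ℝ) (x y : X) : 0 ≤ kf ρ s x y :=
  div_nonneg (Real.exp_pos _).le (Zf_pos ρ s x).le

lemma kf_sum (ρ : X → X → ℝ) (s : ℝ) (x : X) : ∑ y, kf ρ s x y = 1 := by
  unfold kf
  rw [← Finset.sum_div]
  exact div_self (Zf_pos ρ s x).ne'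

lemma kf_ratio (h : PseudoD ρ) {s : ℝ} (hs : 0 < s) (x x' y : X) :
    kf ρ s x y ≤ Real.exp (2 * ρ x x' / s) * kf ρ s x' y := by
  have h1 : ∀ u v y, Real.exp (-(ρ u y) / s) ≤ Real.exp (ρ u v / s) * Real.exp (-(ρ v y) / s) := by
    intro u v y
    rw [← Real.exp_add]
    apply Real.exp_le_exp.2
    rw [← add_div]
    apply div_le_div_of_nonneg_right _ hs.le
    have := h.tri v u y
    rw [h.symm v u] at this
    linarith
  have h2 : Zf ρ s x' ≤ Real.exp (ρ x x' / s) * Zf ρ s x := by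
    unfold Zf
    rw [Finset.mul_sum]
    refine Finset.sum_le_sum fun y _ => ?_
    have := h1 x' x y
    rwa [h.symm x' x] at this
  unfold kf
  rw [div_le_iff₀ (Zf_pos ρ s x)]
  have h3 := h1 x x' y
  have hz := Zf_pos ρ s x'
  have e : Real.exp (2 * ρ x x' / s) = Real.exp (ρ x x' / s) * Real.exp (ρ x x' / s) := by
    rw [← Real.exp_add]; congr 1; ring
  rw [e]
  calc Real.exp (-(ρ x y) / s) ≤ Real.exp (ρ x x' / s) * Real.exp (-(ρ x' y) / s) := h3
    _ = Real.exp (ρ x x' / s) * (Real.exp (-(ρ x' y) / s) / Zf ρ s x') * Zf ρ s x' := by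
        field_simp
    _ ≤ Real.exp (ρ x x' / s) * (Real.exp (-(ρ x' y) / s) / Zf ρ s x') *
        (Real.exp (ρ x x' / s) * Zf ρ s x) := by
        apply mul_le_mul_of_nonneg_left h2
        positivity
    _ = _ := by ring

lemma kf_diff (h : PseudoD ρ) {s : ℝ} (hs : 0 < s) (x x' y : X) :
    |kf ρ s x y - kf ρ s x' y| ≤ (Real.exp (2 * ρ x x' / s) - 1) * kf ρ s x y := by
  have h1 := kf_ratio h hs x x' y
  have h2 := kf_ratio h hs x' x y
  rw [h.symm x' x] at h2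
  have ha := kf_nonneg ρ s x y
  have hb := kf_nonneg ρ s x' y
  have he : 1 ≤ Real.exp (2 * ρ x x' / s) := by
    apply Real.one_le_exp
    have := h.nonneg x x'
    positivity
  set E := Real.exp (2 * ρ x x' / s) with hE
  rw [abs_le]
  constructor
  · linarith
  · rcases le_total (kf ρ s x y) (kf ρ s x' y) with h3 | h3
    · have : 0 ≤ (E - 1) * kf ρ s x y := mul_nonneg (by linarith) ha
      linarith
    · have : (E - 1) * kf ρ s x' y ≤ (E - 1) * kf ρ s x y :=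
        mul_le_mul_of_nonneg_left h3 (by linarith)
      linarith

lemma exp_sub_one_le {t : ℝ} (h0 : 0 ≤ t) (h1 : t ≤ 1) : Real.exp t - 1 ≤ 2 * t := by
  have h := Real.abs_exp_sub_one_le (x := t) (by rw [abs_of_nonneg h0]; exact h1)
  rw [abs_of_nonneg h0] at h
  exact (le_abs_self _).trans h

lemma kf_tv (h : PseudoD ρ) {s : ℝ} (hs : 0 < s) (x x' : X) :
    ∑ y, |kf ρ s x y - kf ρ s x' y| ≤ 4 * ρ x x' / s := by
  have hδ := h.nonneg x x'
  rcases le_total (2 * ρ x x' / s) 1 with h1 | h1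
  · calc ∑ y, |kf ρ s x y - kf ρ s x' y|
        ≤ ∑ y, (Real.exp (2 * ρ x x' / s) - 1) * kf ρ s x y :=
          Finset.sum_le_sum fun y _ => kf_diff h hs x x' y
      _ = Real.exp (2 * ρ x x' / s) - 1 := by rw [← Finset.mul_sum, kf_sum, mul_one]
      _ ≤ 2 * (2 * ρ x x' / s) := exp_sub_one_le (by positivity) h1
      _ = _ := by ring
  · calc ∑ y, |kf ρ s x y - kf ρ s x' y|
        ≤ ∑ y, (kf ρ s x y + kf ρ s x' y) := by
          refine Finset.sum_le_sum fun y _ => ?_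
          have ha := kf_nonneg ρ s x y
          have hb := kf_nonneg ρ s x' y
          rw [abs_le]; constructor <;> linarith
      _ = 2 := by rw [Finset.sum_add_distrib, kf_sum, kf_sum]; norm_num
      _ ≤ 2 * (2 * ρ x x' / s) := by linarith
      _ = _ := by ring

lemma Af_nonneg (h : PseudoD ρ) (s : ℝ) (x : X) : 0 ≤ Af ρ s x :=
  Finset.sum_nonneg fun y _ => mul_nonneg (kf_nonneg ρ s x y) (h.nonneg x y)

/-- thermodynamic inequality -/
lemma Af_le (h : PseudoD ρ) {s : ℝ} (hs : 0 < s) (x : X) :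
    Af ρ s x / (2 * s) ≤ Real.log (Zf ρ (2 * s) x) - Real.log (Zf ρ s x) := by
  have hz := Zf_pos ρ s x
  have hz2 := Zf_pos ρ (2 * s) x
  rw [← Real.log_div hz2.ne' hz.ne', ← Real.log_exp (Af ρ s x / (2 * s))]
  apply Real.log_le_log (Real.exp_pos _)
  have h1 : Zf ρ (2 * s) x / Zf ρ s x = ∑ y, kf ρ s x y * Real.exp (ρ x y / (2 * s)) := by
    unfold kf
    rw [Zf, Finset.sum_div]
    refine Finset.sum_congr rfl fun y _ => ?_
    rw [div_mul_eq_mul_div, ← Real.exp_add]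
    congr 2
    field_simp
    ring
  rw [h1]
  have h2 := convexOn_exp.map_sum_le (t := Finset.univ) (w := fun y => kf ρ s x y)
    (p := fun y => ρ x y / (2 * s)) (fun y _ => kf_nonneg ρ s x y) (kf_sum ρ s x)
    (fun y _ => Set.mem_univ _)
  simp only [smul_eq_mul] at h2
  refine le_trans (le_of_eq ?_) h2
  unfold Af
  rw [Finset.sum_div]
  congr 1
  exact Finset.sum_congr rfl fun y _ => by ring

lemma Af_le_log (h : PseudoD ρ) {s : ℝ} (hs : 0 < s) (x : X) :
    Af ρ s x ≤ 2 * s * Real.log (Fintype.card X) := by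
  have h1 := Af_le h hs x
  have h2 : Real.log (Zf ρ (2 * s) x) ≤ Real.log (Fintype.card X) :=
    Real.log_le_log (Zf_pos ρ _ x) (Zf_le h (by linarith) x)
  have h3 : 0 ≤ Real.log (Zf ρ s x) := Real.log_nonneg (one_le_Zf h s x)
  rw [div_le_iff₀ (by positivity)] at h1
  nlinarith

lemma sum_Af (h : PseudoD ρ) {R : ℝ} (hR : 0 < R) (T : ℕ) (x : X) :
    ∑ i ∈ range T, Af ρ (2 ^ i * R) x / (2 ^ i * R) ≤ 2 * Real.log (Fintype.card X) := by
  have h1 : ∀ i ∈ range T, Af ρ (2 ^ i * R) x / (2 ^ i * R) ≤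
      2 * (Real.log (Zf ρ (2 ^ (i + 1) * R) x) - Real.log (Zf ρ (2 ^ i * R) x)) := by
    intro i _
    have := Af_le h (s := 2 ^ i * R) (by positivity) x
    have e : (2:ℝ) * (2 ^ i * R) = 2 ^ (i + 1) * R := by ring
    rw [e] at this
    have e2 : Af ρ (2 ^ i * R) x / (2 ^ (i + 1) * R) = (Af ρ (2 ^ i * R) x / (2 ^ i * R)) / 2 := by
      rw [pow_succ]; field_simp
    rw [e2] at this
    linarith
  refine (Finset.sum_le_sum h1).trans ?_
  rw [← Finset.mul_sum, Finset.sum_range_sub (fun i => Real.log (Zf ρ (2 ^ i * R) x))]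
  have h2 : Real.log (Zf ρ (2 ^ T * R) x) ≤ Real.log (Fintype.card X) :=
    Real.log_le_log (Zf_pos ρ _ x) (Zf_le h (by positivity) x)
  have h3 : 0 ≤ Real.log (Zf ρ (2 ^ 0 * R) x) := Real.log_nonneg (one_le_Zf h _ x)
  linarith

variable {E : Type*} [NormedAddCommGroup E] [NormedSpace ℝ E]

/-- the Gibbs average of `φ` -/
noncomputable def Tk (k : X → X → ℝ) (φ : X → E) (x : X) : E := ∑ y, k x y • φ y

lemma Tk_sub (k : X → X → ℝ) (φ : X → E) (x x' : X) (hk : ∀ x, ∑ y, k x y = 1) :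
    Tk k φ x - Tk k φ x' = ∑ y, (k x y - k x' y) • (φ y - φ x) := by
  unfold Tk
  have : ∑ y, (k x y - k x' y) • (φ y - φ x) =
      ∑ y, (k x y - k x' y) • φ y - (∑ y, (k x y - k x' y)) • φ x := by
    rw [Finset.sum_smul, ← Finset.sum_sub_distrib]
    exact Finset.sum_congr rfl fun y _ => by rw [smul_sub]
  rw [this, Finset.sum_sub_distrib, hk, hk, sub_self, zero_smul, sub_zero,
    ← Finset.sum_sub_distrib]
  exact Finset.sum_congr rfl fun y _ => by rw [sub_smul]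

lemma Tk_sub_self (k : X → X → ℝ) (φ : X → E) (x : X) (hk : ∀ x, ∑ y, k x y = 1) :
    Tk k φ x - φ x = ∑ y, k x y • (φ y - φ x) := by
  unfold Tk
  have : ∑ y, k x y • (φ y - φ x) = ∑ y, k x y • φ y - (∑ y, k x y) • φ x := by
    rw [Finset.sum_smul, ← Finset.sum_sub_distrib]
    exact Finset.sum_congr rfl fun y _ => by rw [smul_sub]
  rw [this, hk, one_smul]

lemma Tkf_self (h : PseudoD ρ) (s : ℝ) {φ : X → E} {L : ℝ}
    (hφ : ∀ x y, ‖φ x - φ y‖ ≤ L * ρ x y) (x : X) :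
    ‖Tk (kf ρ s) φ x - φ x‖ ≤ L * Af ρ s x := by
  rw [Tk_sub_self _ _ _ (kf_sum ρ s)]
  refine (norm_sum_le _ _).trans ?_
  unfold Af
  rw [Finset.mul_sum]
  refine Finset.sum_le_sum fun y _ => ?_
  rw [norm_smul, Real.norm_of_nonneg (kf_nonneg ρ s x y)]
  have := hφ y x
  rw [h.symm y x] at this
  calc kf ρ s x y * ‖φ y - φ x‖ ≤ kf ρ s x y * (L * ρ x y) :=
        mul_le_mul_of_nonneg_left this (kf_nonneg ρ s x y)
    _ = _ := by ring

lemma Tkf_lip (h : PseudoD ρ) {s : ℝ} (hs : 0 < s) {φ : X → E} {L : ℝ} (hL : 0 ≤ L)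
    (hφ : ∀ x y, ‖φ x - φ y‖ ≤ L * ρ x y) (x x' : X) :
    ‖Tk (kf ρ s) φ x - Tk (kf ρ s) φ x'‖ ≤
      L * ρ x x' * (1 + 4 * (Af ρ s x / s) + 4 * (Af ρ s x' / s)) := by
  have hδ := h.nonneg x x'
  have hA := Af_nonneg h s x
  have hA' := Af_nonneg h s x'
  rcases le_total (2 * ρ x x' / s) 1 with h1 | h1
  · rw [Tk_sub _ _ _ _ (kf_sum ρ s)]
    calc ‖∑ y, (kf ρ s x y - kf ρ s x' y) • (φ y - φ x)‖
        ≤ ∑ y, ‖(kf ρ s x y - kf ρ s x' y) • (φ y - φ x)‖ := norm_sum_le _ _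
      _ ≤ ∑ y, ((Real.exp (2 * ρ x x' / s) - 1) * kf ρ s x y) * (L * ρ x y) := by
          refine Finset.sum_le_sum fun y _ => ?_
          rw [norm_smul, Real.norm_eq_abs]
          have h2 := hφ y x
          rw [h.symm y x] at h2
          exact mul_le_mul (kf_diff h hs x x' y) h2 (norm_nonneg _)
            ((abs_nonneg _).trans (kf_diff h hs x x' y))
      _ = (Real.exp (2 * ρ x x' / s) - 1) * L * Af ρ s x := by
          unfold Af; rw [Finset.mul_sum]; exact Finset.sum_congr rfl fun y _ => by ring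
      _ ≤ (2 * (2 * ρ x x' / s)) * L * Af ρ s x := by
          apply mul_le_mul_of_nonneg_right _ hA
          apply mul_le_mul_of_nonneg_right _ hL
          exact exp_sub_one_le (by positivity) h1
      _ = L * ρ x x' * (4 * (Af ρ s x / s)) := by field_simp; ring
      _ ≤ _ := by
          apply mul_le_mul_of_nonneg_left _ (by positivity)
          have : 0 ≤ 4 * (Af ρ s x' / s) := by positivity
          linarith
  · have e : Tk (kf ρ s) φ x - Tk (kf ρ s) φ x' =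
        (Tk (kf ρ s) φ x - φ x) + (φ x - φ x') - (Tk (kf ρ s) φ x' - φ x') := by abel
    rw [e]
    have h2 := Tkf_self h s hφ x
    have h3 := Tkf_self h s hφ x'
    have h4 := hφ x x'
    have h5 : ‖(Tk (kf ρ s) φ x - φ x) + (φ x - φ x') - (Tk (kf ρ s) φ x' - φ x')‖ ≤
        L * Af ρ s x + L * ρ x x' + L * Af ρ s x' :=
      (norm_sub_le _ _).trans (add_le_add ((norm_add_le _ _).trans (add_le_add h2 h4)) h3)
    refine h5.trans ?_
    have h6 : ∀ a : ℝ, 0 ≤ a → L * a ≤ L * ρ x x' * (2 * (a / s)) := by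
      intro a ha
      have : L * ρ x x' * (2 * (a / s)) = L * a * (2 * ρ x x' / s) := by ring
      rw [this]
      have : 0 ≤ L * a := by positivity
      nlinarith
    have h7 := h6 _ hA
    have h8 := h6 _ hA'
    have h9 : 0 ≤ L * ρ x x' * (2 * (Af ρ s x / s)) := by positivity
    have h10 : 0 ≤ L * ρ x x' * (2 * (Af ρ s x' / s)) := by positivity
    nlinarith

/-- averaged kernel -/
noncomputable def kav (ρ : X → X → ℝ) (T : ℕ) (R : ℝ) (x y : X) : ℝ :=
  (∑ i ∈ range T, kf ρ (2 ^ i * R) x y) / T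

lemma kav_nonneg (ρ : X → X → ℝ) (T : ℕ) (R : ℝ) (x y : X) : 0 ≤ kav ρ T R x y :=
  div_nonneg (Finset.sum_nonneg fun _ _ => kf_nonneg ρ _ x y) (Nat.cast_nonneg T)

lemma kav_sum (ρ : X → X → ℝ) {T : ℕ} (hT : 1 ≤ T) (R : ℝ) (x : X) :
    ∑ y, kav ρ T R x y = 1 := by
  unfold kav
  rw [← Finset.sum_div, Finset.sum_comm]
  simp only [kf_sum]
  have : (T:ℝ) ≠ 0 := by positivity
  rw [Finset.sum_const, card_range, nsmul_eq_mul, mul_one, div_self this]

lemma kav_tv (h : PseudoD ρ) {T : ℕ} (hT : 1 ≤ T) {R : ℝ} (hR : 0 < R) (x x' : X) :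
    ∑ y, |kav ρ T R x y - kav ρ T R x' y| ≤ 4 * ρ x x' / R := by
  have hT' : (0:ℝ) < T := by positivity
  have hδ := h.nonneg x x'
  have h1 : ∀ y, |kav ρ T R x y - kav ρ T R x' y| ≤
      (∑ i ∈ range T, |kf ρ (2 ^ i * R) x y - kf ρ (2 ^ i * R) x' y|) / T := by
    intro y
    unfold kav
    rw [← sub_div, ← Finset.sum_sub_distrib, abs_div, abs_of_pos hT']
    exact div_le_div_of_nonneg_right (Finset.abs_sum_le_sum_abs _ _) hT'.le
  refine (Finset.sum_le_sum fun y _ => h1 y).trans ?_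
  rw [← Finset.sum_div, Finset.sum_comm, div_le_iff₀ hT']
  calc ∑ i ∈ range T, ∑ y, |kf ρ (2 ^ i * R) x y - kf ρ (2 ^ i * R) x' y|
      ≤ ∑ _i ∈ range T, 4 * ρ x x' / R := by
        refine Finset.sum_le_sum fun i _ => ?_
        refine (kf_tv h (s := 2 ^ i * R) (by positivity) x x').trans ?_
        apply div_le_div_of_nonneg_left (by positivity) hR
        have : (1:ℝ) ≤ 2 ^ i := one_le_pow₀ (by norm_num)
        nlinarith
    _ = 4 * ρ x x' / R * T := by rw [Finset.sum_const, card_range, nsmul_eq_mul]; ring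

lemma Tk_kav (ρ : X → X → ℝ) (T : ℕ) (R : ℝ) (φ : X → E) (x : X) :
    Tk (kav ρ T R) φ x = (T:ℝ)⁻¹ • ∑ i ∈ range T, Tk (kf ρ (2 ^ i * R)) φ x := by
  unfold Tk kav
  rw [Finset.smul_sum]
  simp_rw [Finset.smul_sum]
  rw [Finset.sum_comm]
  refine Finset.sum_congr rfl fun y _ => ?_
  simp_rw [smul_smul]
  rw [← Finset.sum_smul, ← Finset.mul_sum]
  congr 1
  rw [div_eq_inv_mul]

theorem kav_lip (h : PseudoD ρ) {T : ℕ} (hT : 1 ≤ T) {R : ℝ} (hR : 0 < R) {φ : X → E} {L : ℝ}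
    (hL : 0 ≤ L) (hφ : ∀ x y, ‖φ x - φ y‖ ≤ L * ρ x y) (x x' : X) :
    ‖Tk (kav ρ T R) φ x - Tk (kav ρ T R) φ x'‖ ≤
      L * ρ x x' * (1 + 16 * Real.log (Fintype.card X) / T) := by
  have hT' : (0:ℝ) < T := by positivity
  have hδ := h.nonneg x x'
  rw [Tk_kav, Tk_kav, ← smul_sub, ← Finset.sum_sub_distrib, norm_smul, norm_inv,
    Real.norm_of_nonneg hT'.le, inv_mul_le_iff₀ hT']
  refine (norm_sum_le _ _).trans ?_
  calc ∑ i ∈ range T, ‖Tk (kf ρ (2 ^ i * R)) φ x - Tk (kf ρ (2 ^ i * R)) φ x'‖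
      ≤ ∑ i ∈ range T, L * ρ x x' * (1 + 4 * (Af ρ (2 ^ i * R) x / (2 ^ i * R)) +
          4 * (Af ρ (2 ^ i * R) x' / (2 ^ i * R))) :=
        Finset.sum_le_sum fun i _ => Tkf_lip h (by positivity) hL hφ x x'
    _ = L * ρ x x' * (T + 4 * (∑ i ∈ range T, Af ρ (2 ^ i * R) x / (2 ^ i * R)) +
          4 * (∑ i ∈ range T, Af ρ (2 ^ i * R) x' / (2 ^ i * R))) := by
        rw [← Finset.mul_sum, Finset.sum_add_distrib, Finset.sum_add_distrib, ← Finset.mul_sum,
          ← Finset.mul_sum, Finset.sum_const, card_range, nsmul_eq_mul, mul_one]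
    _ ≤ L * ρ x x' * (T + 4 * (2 * Real.log (Fintype.card X)) +
          4 * (2 * Real.log (Fintype.card X))) := by
        apply mul_le_mul_of_nonneg_left _ (by positivity)
        have h1 := sum_Af h hR T x
        have h2 := sum_Af h hR T x'
        linarith
    _ = T * (L * ρ x x' * (1 + 16 * Real.log (Fintype.card X) / T)) := by
        field_simp; ring

theorem kav_self (h : PseudoD ρ) {T : ℕ} (hT : 1 ≤ T) {R : ℝ} (hR : 0 < R) {φ : X → E} {L : ℝ}
    (hL : 0 ≤ L) (hφ : ∀ x y, ‖φ x - φ y‖ ≤ L * ρ x y) (x : X) :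
    ‖Tk (kav ρ T R) φ x - φ x‖ ≤ L * (2 ^ T * R * Real.log (Fintype.card X)) := by
  have hT' : (0:ℝ) < T := by positivity
  have hlog : 0 ≤ Real.log (Fintype.card X) := Real.log_natCast_nonneg _
  have e : Tk (kav ρ T R) φ x - φ x =
      (T:ℝ)⁻¹ • ∑ i ∈ range T, (Tk (kf ρ (2 ^ i * R)) φ x - φ x) := by
    rw [Tk_kav, Finset.sum_sub_distrib, smul_sub, Finset.sum_const, card_range,
      ← Nat.cast_smul_eq_nsmul ℝ, smul_smul, inv_mul_cancel₀ hT'.ne', one_smul]
  rw [e, norm_smul, norm_inv, Real.norm_of_nonneg hT'.le, inv_mul_le_iff₀ hT']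
  refine (norm_sum_le _ _).trans ?_
  calc ∑ i ∈ range T, ‖Tk (kf ρ (2 ^ i * R)) φ x - φ x‖
      ≤ ∑ _i ∈ range T, L * (2 ^ T * R * Real.log (Fintype.card X)) := by
        refine Finset.sum_le_sum fun i hi => ?_
        refine (Tkf_self h _ hφ x).trans ?_
        apply mul_le_mul_of_nonneg_left _ hL
        refine (Af_le_log h (s := 2 ^ i * R) (by positivity) x).trans ?_
        apply mul_le_mul_of_nonneg_right _ hlog
        have hi' : i + 1 ≤ T := by have := mem_range.1 hi; omega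
        have : (2:ℝ) ^ (i + 1) ≤ 2 ^ T := pow_le_pow_right₀ (by norm_num) hi'
        have e : 2 * (2 ^ i * R) = 2 ^ (i + 1) * R := by ring
        rw [e]
        exact mul_le_mul_of_nonneg_right this hR.le
    _ = _ := by rw [Finset.sum_const, card_range, nsmul_eq_mul]

end

end Vale.Agent.P249B
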