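import Mathlib
import Vale.Agent.Lib.P249B.Basic
import Vale.Agent.Lib.P249B.Kernel

/-!
Smoothing of a family of functions, in the `ℓ_p` norm over the family.
-/

open Finset

namespace Vale.Agent.P249B

variable {X Θ : Type*} [Fintype X] [Fintype Θ] {p : ℝ} {ρ : X → X → ℝ}

/-- a vector as an element of `PiLp` -/
noncomputable def toL (p : ℝ) (v : Θ → ℝ) : PiLp (ENNReal.ofReal p) (fun _ : Θ => ℝ) :=
  WithLp.toLp _ v

lemma fact_p (hp : 1 ≤ p) : Fact (1 ≤ ENNReal.ofReal p) :=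
  ⟨by rw [← ENNReal.ofReal_one]; exact ENNReal.ofReal_le_ofReal hp⟩

lemma norm_toL (hp : 1 ≤ p) (v : Θ → ℝ) :
    haveI := fact_p hp
    ‖toL p v‖ = lp p v := by
  haveI := fact_p hp
  have h0 : (ENNReal.ofReal p).toReal = p := ENNReal.toReal_ofReal (by linarith)
  rw [PiLp.norm_eq_sum (by rw [h0]; linarith), h0]
  unfold lp toL
  rfl

/-- smoothed family -/
noncomputable def sm (k : X → X → ℝ) (b : X → Θ → ℝ) (x : X) (θ : Θ) : ℝ := ∑ y, k x y * b y θ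

lemma toL_sm (hp : 1 ≤ p) (k : X → X → ℝ) (b : X → Θ → ℝ) (x : X) :
    haveI := fact_p hp
    toL p (sm k b x) = Tk k (fun y => toL p (b y)) x := by
  haveI := fact_p hp
  unfold Tk toL sm
  ext θ
  simp

lemma toL_sub (hp : 1 ≤ p) (v w : Θ → ℝ) :
    haveI := fact_p hp
    toL p (fun θ => v θ - w θ) = toL p v - toL p w := by
  haveI := fact_p hp
  unfold toL
  ext θ
  simp

theorem lp_sm_lip (hp : 1 ≤ p) (h : PseudoD ρ) {T : ℕ} (hT : 1 ≤ T) {R : ℝ} (hR : 0 < R)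
    {b : X → Θ → ℝ} {L : ℝ} (hL : 0 ≤ L)
    (hb : ∀ x y, lp p (fun θ => b x θ - b y θ) ≤ L * ρ x y) (x x' : X) :
    lp p (fun θ => sm (kav ρ T R) b x θ - sm (kav ρ T R) b x' θ) ≤
      L * ρ x x' * (1 + 16 * Real.log (Fintype.card X) / T) := by
  haveI := fact_p hp
  rw [← norm_toL hp, toL_sub hp, toL_sm hp, toL_sm hp]
  apply kav_lip h hT hR hL
  intro x y
  rw [← toL_sub hp, norm_toL hp]
  exact hb x y

theorem lp_sm_self (hp : 1 ≤ p) (h : PseudoD ρ) {T : ℕ} (hT : 1 ≤ T) {R : ℝ} (hR : 0 < R)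
    {b : X → Θ → ℝ} {L : ℝ} (hL : 0 ≤ L)
    (hb : ∀ x y, lp p (fun θ => b x θ - b y θ) ≤ L * ρ x y) (x : X) :
    lp p (fun θ => sm (kav ρ T R) b x θ - b x θ) ≤
      L * (2 ^ T * R * Real.log (Fintype.card X)) := by
  haveI := fact_p hp
  rw [← norm_toL hp, toL_sub hp, toL_sm hp]
  apply kav_self h hT hR hL
  intro x y
  rw [← toL_sub hp, norm_toL hp]
  exact hb x y

theorem lp_sm_bound (hp : 1 ≤ p) {k : X → X → ℝ} (hk : ∀ x y, 0 ≤ k x y)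
    (hk1 : ∀ x, ∑ y, k x y = 1) {b : X → Θ → ℝ} {M : ℝ} (hb : ∀ x, lp p (b x) ≤ M) (x : X) :
    lp p (sm k b x) ≤ M := by
  haveI := fact_p hp
  rw [← norm_toL hp, toL_sm hp]
  unfold Tk
  refine (norm_sum_le _ _).trans ?_
  calc ∑ y, ‖k x y • toL p (b y)‖ ≤ ∑ y, k x y * M := by
        refine Finset.sum_le_sum fun y _ => ?_
        rw [norm_smul, Real.norm_of_nonneg (hk x y), norm_toL hp]
        exact mul_le_mul_of_nonneg_left (hb y) (hk x y)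
    _ = M := by rw [← Finset.sum_mul, hk1, one_mul]

lemma sm_nonneg {k : X → X → ℝ} (hk : ∀ x y, 0 ≤ k x y) {b : X → Θ → ℝ}
    (hb : ∀ x θ, 0 ≤ b x θ) (x : X) (θ : Θ) : 0 ≤ sm k b x θ :=
  Finset.sum_nonneg fun y _ => mul_nonneg (hk x y) (hb y θ)

lemma sm_le {k : X → X → ℝ} (hk : ∀ x y, 0 ≤ k x y) (hk1 : ∀ x, ∑ y, k x y = 1)
    {b : X → Θ → ℝ} {V : ℝ} (hb : ∀ x θ, b x θ ≤ V) (x : X) (θ : Θ) : sm k b x θ ≤ V := by
  unfold sm
  calc ∑ y, k x y * b y θ ≤ ∑ y, k x y * V :=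
        Finset.sum_le_sum fun y _ => mul_le_mul_of_nonneg_left (hb y θ) (hk x y)
    _ = V := by rw [← Finset.sum_mul, hk1, one_mul]

lemma sm_sup (h : PseudoD ρ) {T : ℕ} (hT : 1 ≤ T) {R : ℝ} (hR : 0 < R) {b : X → Θ → ℝ} {V : ℝ}
    (h0 : ∀ x θ, 0 ≤ b x θ) (hb : ∀ x θ, b x θ ≤ V) (x x' : X) (θ : Θ) :
    |sm (kav ρ T R) b x θ - sm (kav ρ T R) b x' θ| ≤ V * (4 * ρ x x' / R) := by
  unfold sm
  rw [← Finset.sum_sub_distrib]
  refine (Finset.abs_sum_le_sum_abs _ _).trans ?_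
  have hV : 0 ≤ V := (h0 x θ).trans (hb x θ)
  calc ∑ y, |kav ρ T R x y * b y θ - kav ρ T R x' y * b y θ|
      ≤ ∑ y, |kav ρ T R x y - kav ρ T R x' y| * V := by
        refine Finset.sum_le_sum fun y _ => ?_
        rw [← sub_mul, abs_mul, abs_of_nonneg (h0 y θ)]
        exact mul_le_mul_of_nonneg_left (hb y θ) (abs_nonneg _)
    _ = V * ∑ y, |kav ρ T R x y - kav ρ T R x' y| := by rw [← Finset.sum_mul]; ring
    _ ≤ _ := mul_le_mul_of_nonneg_left (kav_tv h hT hR x x') hV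

end Vale.Agent.P249B
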