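import Mathlib
import Vale.Agent.Lib.P249B.Basic

/-!
Random hashing of an `ℓ_p` vector into one bucket.
-/

open Finset

namespace Vale.Agent.P249B

variable {Ω β : Type*} [Fintype Ω] [DecidableEq Ω] [Fintype β] [DecidableEq β] {p : ℝ}

/-- restriction to the bucket `b0` -/
def rst (b0 : β) (h : Ω → β) (u : Ω → ℝ) : Ω → ℝ := fun ω => if h ω = b0 then u ω else 0

/-- truncated norm of the restriction to the bucket `b0` -/
noncomputable def Nh (p V : ℝ) (b0 : β) (h : Ω → β) (u : Ω → ℝ) : ℝ := min V (lp p (rst b0 h u))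

lemma card1 (b0 : β) (ω : Ω) :
    (∑ h : Ω → β, if h ω = b0 then (1:ℝ) else 0) * (Fintype.card β : ℝ) =
      (Fintype.card (Ω → β) : ℝ) := by
  have h := sum_indicator b0 ({ω} : Finset Ω)
  simpa using h

lemma card2 (b0 : β) {ω ω' : Ω} (hne : ω ≠ ω') :
    (∑ h : Ω → β, if h ω = b0 ∧ h ω' = b0 then (1:ℝ) else 0) * (Fintype.card β : ℝ) ^ 2 =
      (Fintype.card (Ω → β) : ℝ) := by
  have h := sum_indicator b0 ({ω, ω'} : Finset Ω)
  rw [Finset.card_pair hne] at h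
  simpa using h

lemma Nh_nonneg {V : ℝ} (hV : 0 ≤ V) (b0 : β) (h : Ω → β) (u : Ω → ℝ) : 0 ≤ Nh p V b0 h u :=
  le_min hV (lp_nonneg p _)

lemma Nh_le (V : ℝ) (b0 : β) (h : Ω → β) (u : Ω → ℝ) : Nh p V b0 h u ≤ V := min_le_left _ _

lemma Nh_sub (hp : 1 ≤ p) (V : ℝ) (b0 : β) (h : Ω → β) (u w : Ω → ℝ) :
    |Nh p V b0 h u - Nh p V b0 h w| ≤ lp p (rst b0 h (fun i => u i - w i)) := by
  have h1 : |Nh p V b0 h u - Nh p V b0 h w| ≤ |lp p (rst b0 h u) - lp p (rst b0 h w)| := by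
    unfold Nh
    refine (abs_min_sub_min_le_max _ _ _ _).trans ?_
    simp
  refine h1.trans ((abs_lp_sub_le hp _ _).trans (le_of_eq ?_))
  congr 1
  funext i
  unfold rst
  by_cases hi : h i = b0 <;> simp [hi]

lemma sum_rst (hp : 0 < p) (b0 : β) (u : Ω → ℝ) :
    ∑ h : Ω → β, lp p (rst b0 h u) ^ p =
      (Fintype.card (Ω → β) : ℝ) / Fintype.card β * ∑ ω, |u ω| ^ p := by
  haveI : Nonempty β := ⟨b0⟩
  have hβ : (0:ℝ) < Fintype.card β := by
    have : 0 < Fintype.card β := Fintype.card_pos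
    exact_mod_cast this
  simp_rw [lp_rpow hp]
  rw [Finset.sum_comm, Finset.mul_sum]
  refine Finset.sum_congr rfl fun ω _ => ?_
  have h1 : ∀ h : Ω → β, |rst b0 h u ω| ^ p = (if h ω = b0 then (1:ℝ) else 0) * |u ω| ^ p := by
    intro h
    unfold rst
    by_cases hh : h ω = b0
    · simp [hh]
    · simp [hh, Real.zero_rpow hp.ne']
  simp_rw [h1]
  rw [← Finset.sum_mul]
  congr 1
  rw [eq_div_iff hβ.ne']
  exact card1 b0 ω

lemma hash_upper (hp : 1 ≤ p) (V : ℝ) (b0 : β) (u w : Ω → ℝ) :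
    ∑ h : Ω → β, |Nh p V b0 h u - Nh p V b0 h w| ^ p ≤
      (Fintype.card (Ω → β) : ℝ) / Fintype.card β * ∑ ω, |u ω - w ω| ^ p := by
  have hp0 : 0 < p := by linarith
  rw [← sum_rst hp0 b0]
  exact Finset.sum_le_sum fun h _ =>
    Real.rpow_le_rpow (abs_nonneg _) (Nh_sub hp V b0 h u w) hp0.le

/-- one coordinate isolated in the bucket -/
def Ev (b0 : β) (p t : ℝ) (u w : Ω → ℝ) (ω0 : Ω) (h : Ω → β) : Prop :=
  h ω0 = b0 ∧ ∑ ω ∈ univ.erase ω0, (if h ω = b0 then |u ω| ^ p + |w ω| ^ p else 0) < t ^ p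

lemma Nh_near (hp : 1 ≤ p) {V t : ℝ} (ht : 0 < t) (b0 : β) (h : Ω → β) (u : Ω → ℝ)
    (ω0 : Ω) (hu : ∀ ω, 0 ≤ u ω) (hV : u ω0 ≤ V) (h0 : h ω0 = b0)
    (hs : ∑ ω ∈ univ.erase ω0, (if h ω = b0 then |u ω| ^ p else 0) ≤ t ^ p) :
    |Nh p V b0 h u - u ω0| ≤ t := by
  have hp0 : 0 < p := by linarith
  have h1 : |Nh p V b0 h u - u ω0| ≤ |lp p (rst b0 h u) - u ω0| := by
    unfold Nh
    have : min V (u ω0) = u ω0 := min_eq_right hV
    rw [← this]
    refine (abs_min_sub_min_le_max _ _ _ _).trans ?_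
    rw [this]
    simp
  refine h1.trans ?_
  have h2 : lp p (fun ω => if ω = ω0 then u ω0 else 0) = u ω0 := by
    unfold lp
    have e : ∀ ω, |(if ω = ω0 then u ω0 else (0:ℝ))| ^ p = if ω = ω0 then (u ω0) ^ p else 0 := by
      intro ω
      by_cases hω : ω = ω0
      · simp [hω, abs_of_nonneg (hu ω0)]
      · simp [hω, Real.zero_rpow hp0.ne']
    simp_rw [e]
    rw [Finset.sum_ite_eq']
    simp only [mem_univ, if_true]
    rw [← Real.rpow_mul (hu ω0), mul_one_div_cancel hp0.ne', Real.rpow_one]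
  calc |lp p (rst b0 h u) - u ω0| = |lp p (rst b0 h u) - lp p (fun ω => if ω = ω0 then u ω0 else 0)| := by
        rw [h2]
    _ ≤ lp p (fun ω => rst b0 h u ω - (if ω = ω0 then u ω0 else 0)) := abs_lp_sub_le hp _ _
    _ ≤ t := by
        rw [lp_le_iff hp0 _ ht.le]
        refine le_trans (le_of_eq ?_) hs
        rw [← Finset.add_sum_erase univ _ (mem_univ ω0)]
        have e0 : |rst b0 h u ω0 - (if ω0 = ω0 then u ω0 else 0)| ^ p = 0 := by
          unfold rst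
          simp [h0, Real.zero_rpow hp0.ne']
        rw [e0, zero_add]
        refine Finset.sum_congr rfl fun ω hω => ?_
        have hne : ω ≠ ω0 := (Finset.mem_erase.1 hω).1
        unfold rst
        by_cases hh : h ω = b0
        · simp [hh, hne]
        · simp [hh, hne, Real.zero_rpow hp0.ne']

lemma Ev_diff (hp : 1 ≤ p) {V t : ℝ} (ht : 0 < t) (b0 : β) (h : Ω → β) (u w : Ω → ℝ)
    (ω0 : Ω) (hu : ∀ ω, 0 ≤ u ω) (hw : ∀ ω, 0 ≤ w ω) (hV : u ω0 ≤ V) (hV' : w ω0 ≤ V)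
    (hE : Ev b0 p t u w ω0 h) (hd : 4 * t ≤ |u ω0 - w ω0|) :
    |u ω0 - w ω0| / 2 ≤ |Nh p V b0 h u - Nh p V b0 h w| := by
  obtain ⟨h0, hs⟩ := hE
  have hnn : ∀ (x : ℝ), 0 ≤ |x| ^ p := fun x => Real.rpow_nonneg (abs_nonneg x) p
  have h1 : |Nh p V b0 h u - u ω0| ≤ t := by
    refine Nh_near hp ht b0 h u ω0 hu hV h0 (le_trans (Finset.sum_le_sum fun ω _ => ?_) hs.le)
    by_cases hh : h ω = b0
    · simp only [hh, if_true]; linarith [hnn (w ω)]
    · simp [hh]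
  have h2 : |Nh p V b0 h w - w ω0| ≤ t := by
    refine Nh_near hp ht b0 h w ω0 hw hV' h0 (le_trans (Finset.sum_le_sum fun ω _ => ?_) hs.le)
    by_cases hh : h ω = b0
    · simp only [hh, if_true]; linarith [hnn (u ω)]
    · simp [hh]
  have h3 : |u ω0 - w ω0| ≤ |Nh p V b0 h u - Nh p V b0 h w| + |Nh p V b0 h u - u ω0| +
      |Nh p V b0 h w - w ω0| := by
    have e : u ω0 - w ω0 = (Nh p V b0 h u - Nh p V b0 h w) - (Nh p V b0 h u - u ω0) +
      (Nh p V b0 h w - w ω0) := by ring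
    calc |u ω0 - w ω0| = |(Nh p V b0 h u - Nh p V b0 h w) - (Nh p V b0 h u - u ω0) +
          (Nh p V b0 h w - w ω0)| := by rw [← e]
      _ ≤ _ := (abs_add_le _ _).trans (add_le_add_left (abs_sub _ _) _)
  linarith

lemma Ev_prob (hp : 0 < p) {t : ℝ} (ht : 0 < t) (b0 : β) (u w : Ω → ℝ) (ω0 : Ω)
    (hB : 2 * (∑ ω, |u ω| ^ p + ∑ ω, |w ω| ^ p) ≤ Fintype.card β * t ^ p) [∀ h, Decidable (Ev b0 p t u w ω0 h)] :
    (Fintype.card (Ω → β) : ℝ) / (2 * Fintype.card β) ≤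
      ∑ h : Ω → β, if Ev b0 p t u w ω0 h then (1:ℝ) else 0 := by
  haveI : Nonempty β := ⟨b0⟩
  have hβ : (0:ℝ) < Fintype.card β := by
    have : 0 < Fintype.card β := Fintype.card_pos
    exact_mod_cast this
  have htp : 0 < t ^ p := Real.rpow_pos_of_pos ht p
  have hnn : ∀ (x : ℝ), 0 ≤ |x| ^ p := fun x => Real.rpow_nonneg (abs_nonneg x) p
  have hpt : ∀ h : Ω → β, (if h ω0 = b0 then (1:ℝ) else 0) - (1 / t ^ p) *
      ∑ ω ∈ univ.erase ω0, (if h ω0 = b0 ∧ h ω = b0 then (1:ℝ) else 0) * (|u ω| ^ p + |w ω| ^ p) ≤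
      if Ev b0 p t u w ω0 h then (1:ℝ) else 0 := by
    intro h
    by_cases h0 : h ω0 = b0
    · have e : ∑ ω ∈ univ.erase ω0, (if h ω0 = b0 ∧ h ω = b0 then (1:ℝ) else 0) *
          (|u ω| ^ p + |w ω| ^ p) =
          ∑ ω ∈ univ.erase ω0, (if h ω = b0 then |u ω| ^ p + |w ω| ^ p else 0) := by
        refine Finset.sum_congr rfl fun ω _ => ?_
        by_cases hh : h ω = b0 <;> simp [h0, hh]
      rw [e, if_pos h0]
      by_cases hE : Ev b0 p t u w ω0 h
      · rw [if_pos hE]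
        have : 0 ≤ (1 / t ^ p) *
            ∑ ω ∈ univ.erase ω0, (if h ω = b0 then |u ω| ^ p + |w ω| ^ p else 0) := by
          apply mul_nonneg (by positivity)
          refine Finset.sum_nonneg fun ω _ => ?_
          by_cases hh : h ω = b0
          · simp only [hh, if_true]; linarith [hnn (u ω), hnn (w ω)]
          · simp [hh]
        linarith
      · rw [if_neg hE]
        have : t ^ p ≤ ∑ ω ∈ univ.erase ω0, (if h ω = b0 then |u ω| ^ p + |w ω| ^ p else 0) := by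
          by_contra hcon
          push Not at hcon
          exact hE ⟨h0, hcon⟩
        have h2 : 1 ≤ (1 / t ^ p) *
            ∑ ω ∈ univ.erase ω0, (if h ω = b0 then |u ω| ^ p + |w ω| ^ p else 0) := by
          rw [one_div, inv_mul_eq_div, le_div_iff₀ htp]
          linarith
        linarith
    · have hE : ¬ Ev b0 p t u w ω0 h := fun hE => h0 hE.1
      rw [if_neg hE, if_neg h0]
      simp [h0]
  refine le_trans ?_ (Finset.sum_le_sum fun h _ => hpt h)
  rw [Finset.sum_sub_distrib, ← Finset.mul_sum, Finset.sum_comm]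
  have c1 : ∑ h : Ω → β, (if h ω0 = b0 then (1:ℝ) else 0) =
      (Fintype.card (Ω → β) : ℝ) / Fintype.card β := by
    rw [eq_div_iff hβ.ne']; exact card1 b0 ω0
  have c2 : ∀ ω ∈ univ.erase ω0, ∑ h : Ω → β, (if h ω0 = b0 ∧ h ω = b0 then (1:ℝ) else 0) *
      (|u ω| ^ p + |w ω| ^ p) =
      (Fintype.card (Ω → β) : ℝ) / (Fintype.card β) ^ 2 * (|u ω| ^ p + |w ω| ^ p) := by
    intro ω hω
    rw [← Finset.sum_mul]
    congr 1
    rw [eq_div_iff (by positivity)]
    exact card2 b0 (Finset.mem_erase.1 hω).1.symm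
  rw [c1, Finset.sum_congr rfl c2, ← Finset.mul_sum]
  have c3 : ∑ ω ∈ univ.erase ω0, (|u ω| ^ p + |w ω| ^ p) ≤ ∑ ω, |u ω| ^ p + ∑ ω, |w ω| ^ p := by
    rw [← Finset.sum_add_distrib]
    exact Finset.sum_le_sum_of_subset_of_nonneg (Finset.erase_subset _ _)
      fun ω _ _ => by linarith [hnn (u ω), hnn (w ω)]
  set C : ℝ := (Fintype.card (Ω → β) : ℝ) with hC
  set B : ℝ := (Fintype.card β : ℝ) with hBdef
  have hC0 : 0 ≤ C := by positivity
  have h4 : (1 / t ^ p) * (C / B ^ 2 * ∑ ω ∈ univ.erase ω0, (|u ω| ^ p + |w ω| ^ p)) ≤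
      C / (2 * B) := by
    have h5 : C / B ^ 2 * ∑ ω ∈ univ.erase ω0, (|u ω| ^ p + |w ω| ^ p) ≤
        C / B ^ 2 * (B * t ^ p / 2) := by
      apply mul_le_mul_of_nonneg_left _ (by positivity)
      linarith
    calc (1 / t ^ p) * (C / B ^ 2 * ∑ ω ∈ univ.erase ω0, (|u ω| ^ p + |w ω| ^ p))
        ≤ (1 / t ^ p) * (C / B ^ 2 * (B * t ^ p / 2)) :=
          mul_le_mul_of_nonneg_left h5 (by positivity)
      _ = C / (2 * B) := by field_simp
  have h6 : C / B = C / (2 * B) + C / (2 * B) := by field_simp; ring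
  linarith

theorem hash_lower (hp : 1 ≤ p) {V t : ℝ} (ht : 0 < t) (b0 : β) (u w : Ω → ℝ)
    (hu : ∀ ω, 0 ≤ u ω) (hw : ∀ ω, 0 ≤ w ω) (G : Finset Ω)
    (hG : ∀ ω ∈ G, u ω ≤ V ∧ w ω ≤ V ∧ 4 * t ≤ |u ω - w ω|)
    (hB : 2 * (∑ ω, |u ω| ^ p + ∑ ω, |w ω| ^ p) ≤ Fintype.card β * t ^ p) :
    (Fintype.card (Ω → β) : ℝ) / (2 * Fintype.card β) * ∑ ω ∈ G, (|u ω - w ω| / 2) ^ p ≤
      ∑ h : Ω → β, |Nh p V b0 h u - Nh p V b0 h w| ^ p := by
  classical
  have hp0 : 0 < p := by linarith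
  have hnn : ∀ (x : ℝ), 0 ≤ |x| ^ p := fun x => Real.rpow_nonneg (abs_nonneg x) p
  have hpt : ∀ h : Ω → β, ∑ ω ∈ G, (if Ev b0 p t u w ω h then (|u ω - w ω| / 2) ^ p else 0) ≤
      |Nh p V b0 h u - Nh p V b0 h w| ^ p := by
    intro h
    by_cases hex : ∃ ω0 ∈ G, Ev b0 p t u w ω0 h
    · obtain ⟨ω0, hω0, hE⟩ := hex
      have huniq : ∀ ω ∈ G, ω ≠ ω0 → ¬ Ev b0 p t u w ω h := by
        intro ω hω hne hE'
        -- ω lies in the bucket and is heavy, contradiction with `Ev ω0`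
        have h1 := hE.2
        have hmem : ω ∈ univ.erase ω0 := Finset.mem_erase.2 ⟨hne, mem_univ _⟩
        have h2 : (if h ω = b0 then |u ω| ^ p + |w ω| ^ p else 0) ≤
            ∑ ω ∈ univ.erase ω0, (if h ω = b0 then |u ω| ^ p + |w ω| ^ p else 0) :=
          Finset.single_le_sum (f := fun ω => if h ω = b0 then |u ω| ^ p + |w ω| ^ p else 0)
            (fun ω _ => by
              by_cases hh : h ω = b0
              · simp only [hh, if_true]; linarith [hnn (u ω), hnn (w ω)]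
              · simp [hh]) hmem
        rw [if_pos hE'.1] at h2
        obtain ⟨_, _, hd⟩ := hG ω hω
        have h3 : t ≤ max (u ω) (w ω) := by
          have : |u ω - w ω| ≤ max (u ω) (w ω) := by
            rw [abs_le]
            constructor
            · have := le_max_right (u ω) (w ω); linarith [hu ω]
            · have := le_max_left (u ω) (w ω); linarith [hw ω]
          linarith
        have h4 : t ^ p ≤ |u ω| ^ p + |w ω| ^ p := by
          rcases le_max_iff.1 h3 with h5 | h5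
          · have : t ^ p ≤ |u ω| ^ p :=
              Real.rpow_le_rpow ht.le (h5.trans (le_abs_self _)) hp0.le
            linarith [hnn (w ω)]
          · have : t ^ p ≤ |w ω| ^ p :=
              Real.rpow_le_rpow ht.le (h5.trans (le_abs_self _)) hp0.le
            linarith [hnn (u ω)]
        linarith
      rw [Finset.sum_eq_single_of_mem ω0 hω0 (fun ω hω hne => if_neg (huniq ω hω hne)),
        if_pos hE]
      obtain ⟨h1, h2, h3⟩ := hG ω0 hω0
      exact Real.rpow_le_rpow (by positivity) (Ev_diff hp ht b0 h u w ω0 hu hw h1 h2 hE h3) hp0.le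
    · push Not at hex
      rw [Finset.sum_eq_zero (fun ω hω => if_neg (hex ω hω))]
      exact Real.rpow_nonneg (abs_nonneg _) _
  refine le_trans ?_ (Finset.sum_le_sum fun h _ => hpt h)
  rw [Finset.sum_comm, Finset.mul_sum]
  refine Finset.sum_le_sum fun ω _ => ?_
  have e : ∑ h : Ω → β, (if Ev b0 p t u w ω h then (|u ω - w ω| / 2) ^ p else 0) =
      (∑ h : Ω → β, if Ev b0 p t u w ω h then (1:ℝ) else 0) * (|u ω - w ω| / 2) ^ p := by
    rw [Finset.sum_mul]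
    refine Finset.sum_congr rfl fun h _ => ?_
    by_cases hE : Ev b0 p t u w ω h <;> simp [hE]
  rw [e]
  exact mul_le_mul_of_nonneg_right (Ev_prob hp0 ht b0 u w ω hB) (by positivity)

end Vale.Agent.P249B
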