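import Mathlib
import Vale.Agent.Lib.P249B.Hash

/-!
Positive and negative parts, and the hashing lower bound for signed vectors.
-/

open Finset

namespace Vale.Agent.P249B

variable {Ω β : Type*} [Fintype Ω] [DecidableEq Ω] [Fintype β] [DecidableEq β] {p : ℝ}

/-- positive and negative parts -/
noncomputable def pn (v : Ω → ℝ) : Ω × Bool → ℝ :=
  fun x => max (if x.2 then v x.1 else -v x.1) 0

omit [Fintype Ω] [DecidableEq Ω] in
lemma pn_nonneg (v : Ω → ℝ) (x : Ω × Bool) : 0 ≤ pn v x := le_max_right _ _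

omit [Fintype Ω] [DecidableEq Ω] in
lemma pn_le (v : Ω → ℝ) (ω : Ω) (b : Bool) : pn v (ω, b) ≤ |v ω| := by
  unfold pn
  refine max_le ?_ (abs_nonneg _)
  cases b
  · simpa using neg_le_abs (v ω)
  · simpa using le_abs_self (v ω)

lemma add_rpow_le {A B : ℝ} (hp : 1 ≤ p) (hA : 0 ≤ A) (hB : 0 ≤ B) :
    A ^ p + B ^ p ≤ (A + B) ^ p := by
  have h := NNReal.add_rpow_le_rpow_add ⟨A, hA⟩ ⟨B, hB⟩ hp
  exact_mod_cast h

lemma pn_pair (x y : ℝ) : |max x 0 - max y 0| + |max (-x) 0 - max (-y) 0| = |x - y| := by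
  rcases le_total 0 x with hx | hx <;> rcases le_total 0 y with hy | hy
  · rw [max_eq_left hx, max_eq_left hy, max_eq_right (by linarith : -x ≤ 0),
      max_eq_right (by linarith : -y ≤ 0)]
    simp
  · rw [max_eq_left hx, max_eq_right hy, max_eq_right (by linarith : -x ≤ 0),
      max_eq_left (by linarith : 0 ≤ -y)]
    rw [abs_of_nonneg (by linarith : 0 ≤ x - 0), abs_of_nonpos (by linarith : 0 - -y ≤ 0),
      abs_of_nonneg (by linarith : 0 ≤ x - y)]
    ring
  · rw [max_eq_right hx, max_eq_left hy, max_eq_left (by linarith : 0 ≤ -x),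
      max_eq_right (by linarith : -y ≤ 0)]
    rw [abs_of_nonpos (by linarith : 0 - y ≤ 0), abs_of_nonneg (by linarith : 0 ≤ -x - 0),
      abs_of_nonpos (by linarith : x - y ≤ 0)]
    ring
  · rw [max_eq_right hx, max_eq_right hy, max_eq_left (by linarith : 0 ≤ -x),
      max_eq_left (by linarith : 0 ≤ -y)]
    rw [sub_zero, abs_zero, zero_add, abs_sub_comm x y]
    congr 1
    ring

lemma pn_pair_pow (hp : 1 ≤ p) (x y : ℝ) :
    |max x 0 - max y 0| ^ p + |max (-x) 0 - max (-y) 0| ^ p ≤ |x - y| ^ p := by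
  rw [← pn_pair x y]
  exact add_rpow_le hp (abs_nonneg _) (abs_nonneg _)

omit [DecidableEq Ω] in
lemma sum_pn_sub (hp : 1 ≤ p) (v w : Ω → ℝ) :
    ∑ x, |pn v x - pn w x| ^ p ≤ ∑ ω, |v ω - w ω| ^ p := by
  rw [Fintype.sum_prod_type]
  refine Finset.sum_le_sum fun ω _ => ?_
  rw [Fintype.sum_bool]
  unfold pn
  simpa using pn_pair_pow hp (v ω) (w ω)

omit [DecidableEq Ω] in
lemma sum_pn (hp : 1 ≤ p) (v : Ω → ℝ) :
    ∑ x, |pn v x| ^ p ≤ ∑ ω, |v ω| ^ p := by
  have h := sum_pn_sub hp v (fun _ => 0)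
  have e : ∀ x, pn (fun _ : Ω => (0:ℝ)) x = 0 := fun x => by unfold pn; simp
  simpa [e] using h

omit [Fintype Ω] [DecidableEq Ω] in
lemma exists_pn (v w : Ω → ℝ) (ω : Ω) :
    ∃ b, |v ω - w ω| / 2 ≤ |pn v (ω, b) - pn w (ω, b)| := by
  have h := pn_pair (v ω) (w ω)
  by_contra hcon
  push Not at hcon
  have h1 := hcon true
  have h2 := hcon false
  unfold pn at h1 h2
  simp only [if_true, Bool.false_eq_true, if_false] at h1 h2
  linarith

/-- scale level mass -/
noncomputable def levelMass (p a Q : ℝ) (z : Ω → ℝ) : ℝ :=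
  ∑ ω, if a / Q < |z ω| ∧ |z ω| ≤ a then |z ω| ^ p else 0

theorem hash_lower_signed (hp : 1 ≤ p) {a Q V r : ℝ} (ha : 0 < a) (hQ : 1 ≤ Q) (hV : 0 < V)
    (b0 : β) (v w : Ω → ℝ) (hv : ∑ ω, |v ω| ^ p ≤ r ^ p)
    (hw : ∑ ω, |w ω| ^ p ≤ r ^ p) (hB : 4 * r ^ p ≤ Fintype.card β * (a / (8 * Q)) ^ p) :
    (Fintype.card (Ω × Bool → β) : ℝ) / (2 * Fintype.card β) *
      ((1 / 4) ^ p * (levelMass p a Q (fun ω => v ω - w ω) - 2 * (a ^ p * r ^ p / V ^ p))) ≤
      ∑ h : Ω × Bool → β, |Nh p V b0 h (pn v) - Nh p V b0 h (pn w)| ^ p := by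
  classical
  have hp0 : 0 < p := by linarith
  have hQ0 : 0 < Q := by linarith
  set t : ℝ := a / (8 * Q) with ht
  have ht0 : 0 < t := by positivity
  set G : Finset (Ω × Bool) := univ.filter
    (fun x => pn v x ≤ V ∧ pn w x ≤ V ∧ 4 * t ≤ |pn v x - pn w x|) with hG
  have h1 := hash_lower hp (V := V) ht0 b0 (pn v) (pn w) (pn_nonneg v) (pn_nonneg w) G
    (fun x hx => by simpa [hG] using hx)
    (by
      have h2 := sum_pn hp v
      have h3 := sum_pn hp w
      linarith)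
  refine le_trans ?_ h1
  apply mul_le_mul_of_nonneg_left _ (by positivity)
  have hVp : 0 < V ^ p := Real.rpow_pos_of_pos hV p
  have hap : 0 < a ^ p := Real.rpow_pos_of_pos ha p
  have hnn : ∀ (x : ℝ), 0 ≤ |x| ^ p := fun x => Real.rpow_nonneg (abs_nonneg x) p
  -- good base coordinates
  have h4 : ∀ ω, (if a / Q < |v ω - w ω| ∧ |v ω - w ω| ≤ a then |v ω - w ω| ^ p else 0) ≤
      (if (a / Q < |v ω - w ω| ∧ |v ω - w ω| ≤ a) ∧ |v ω| ≤ V ∧ |w ω| ≤ V then
        |v ω - w ω| ^ p else 0) + a ^ p * (|v ω| ^ p + |w ω| ^ p) / V ^ p := by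
    intro ω
    have hnn' : 0 ≤ a ^ p * (|v ω| ^ p + |w ω| ^ p) / V ^ p := by
      have := hnn (v ω); have := hnn (w ω); positivity
    by_cases hS : a / Q < |v ω - w ω| ∧ |v ω - w ω| ≤ a
    · rw [if_pos hS]
      by_cases hb : |v ω| ≤ V ∧ |w ω| ≤ V
      · rw [if_pos ⟨hS, hb⟩]; linarith
      · rw [if_neg (fun h => hb h.2), zero_add]
        have h5 : V ^ p ≤ |v ω| ^ p + |w ω| ^ p := by
          by_cases hv' : |v ω| ≤ V
          · have hw' : V < |w ω| := by
              by_contra hcon; exact hb ⟨hv', not_lt.1 hcon⟩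
            have := Real.rpow_le_rpow hV.le hw'.le hp0.le
            linarith [hnn (v ω)]
          · have := Real.rpow_le_rpow hV.le (not_le.1 hv').le hp0.le
            linarith [hnn (w ω)]
        have h6 : |v ω - w ω| ^ p ≤ a ^ p := Real.rpow_le_rpow (abs_nonneg _) hS.2 hp0.le
        rw [le_div_iff₀ hVp]
        exact mul_le_mul h6 h5 hVp.le hap.le
    · rw [if_neg hS]
      have : 0 ≤ (if (a / Q < |v ω - w ω| ∧ |v ω - w ω| ≤ a) ∧ |v ω| ≤ V ∧ |w ω| ≤ V then
        |v ω - w ω| ^ p else 0) := by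
        split_ifs
        · exact hnn _
        · exact le_rfl
      linarith
  have h5 : levelMass p a Q (fun ω => v ω - w ω) ≤
      (∑ ω, if (a / Q < |v ω - w ω| ∧ |v ω - w ω| ≤ a) ∧ |v ω| ≤ V ∧ |w ω| ≤ V then
        |v ω - w ω| ^ p else 0) + 2 * (a ^ p * r ^ p / V ^ p) := by
    unfold levelMass
    refine (Finset.sum_le_sum fun ω _ => h4 ω).trans ?_
    rw [Finset.sum_add_distrib]
    apply add_le_add le_rfl
    rw [← Finset.sum_div, ← Finset.mul_sum, Finset.sum_add_distrib]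
    rw [← mul_div_assoc]
    apply div_le_div_of_nonneg_right _ hVp.le
    nlinarith
  have h6 : ∀ ω, (1 / 4 : ℝ) ^ p * (if (a / Q < |v ω - w ω| ∧ |v ω - w ω| ≤ a) ∧ |v ω| ≤ V ∧
      |w ω| ≤ V then |v ω - w ω| ^ p else 0) ≤
      ∑ b, (if (ω, b) ∈ G then (|pn v (ω, b) - pn w (ω, b)| / 2) ^ p else 0) := by
    intro ω
    have hterm : ∀ b, 0 ≤ (if (ω, b) ∈ G then (|pn v (ω, b) - pn w (ω, b)| / 2) ^ p else 0) := by
      intro b
      split_ifs
      · positivity
      · exact le_rfl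
    by_cases hS : (a / Q < |v ω - w ω| ∧ |v ω - w ω| ≤ a) ∧ |v ω| ≤ V ∧ |w ω| ≤ V
    · rw [if_pos hS]
      obtain ⟨b, hb⟩ := exists_pn v w ω
      have hmem : (ω, b) ∈ G := by
        rw [hG, Finset.mem_filter]
        refine ⟨mem_univ _, (pn_le v ω b).trans hS.2.1, (pn_le w ω b).trans hS.2.2, ?_⟩
        have : 4 * t = (a / Q) / 2 := by rw [ht]; field_simp; ring
        rw [this]
        have := hS.1.1
        linarith
      refine le_trans ?_ (Finset.single_le_sum (f := fun b => (if (ω, b) ∈ G then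
        (|pn v (ω, b) - pn w (ω, b)| / 2) ^ p else 0)) (fun b _ => hterm b) (mem_univ b))
      simp only [if_pos hmem]
      rw [← Real.mul_rpow (by norm_num) (abs_nonneg _)]
      apply Real.rpow_le_rpow (by positivity) _ hp0.le
      linarith
    · rw [if_neg hS, mul_zero]
      exact Finset.sum_nonneg fun b _ => hterm b
  have h7 : ∑ x ∈ G, (|pn v x - pn w x| / 2) ^ p =
      ∑ ω, ∑ b, (if (ω, b) ∈ G then (|pn v (ω, b) - pn w (ω, b)| / 2) ^ p else 0) := by
    rw [← Fintype.sum_prod_type (f := fun x : Ω × Bool => if x ∈ G then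
      (|pn v x - pn w x| / 2) ^ p else 0)]
    rw [Finset.sum_ite_mem, Finset.univ_inter]
  rw [h7]
  refine le_trans ?_ (Finset.sum_le_sum fun ω _ => h6 ω)
  rw [← Finset.mul_sum]
  apply mul_le_mul_of_nonneg_left _ (by positivity)
  linarith

end Vale.Agent.P249B
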