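import Mathlib

/-!
# P249: the first element of a set in a random ordering is uniformly distributed
-/

namespace Vale.Agent.P249B

open Finset

/-- the orderings in which `s` comes first among the elements of `S'` -/
def firstSet {X : Type*} [Fintype X] [DecidableEq X] (S' : Finset X) (s : X) :
    Finset (X ≃ Fin (Fintype.card X)) :=
  Finset.univ.filter (fun π => ∀ s' ∈ S', π s ≤ π s')

theorem mem_firstSet {X : Type*} [Fintype X] [DecidableEq X] {S' : Finset X} {s : X}
    {π : X ≃ Fin (Fintype.card X)} : π ∈ firstSet S' s ↔ ∀ s' ∈ S', π s ≤ π s' := by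
  simp [firstSet]

theorem card_firstSet_le {X : Type*} [Fintype X] [DecidableEq X] {S' : Finset X} {s t : X}
    (hs : s ∈ S') (ht : t ∈ S') : (firstSet S' s).card ≤ (firstSet S' t).card := by
  refine Finset.card_le_card_of_injOn (fun π => (Equiv.swap s t).trans π) ?_ ?_
  · intro π hπ
    have hπ' := mem_firstSet.1 hπ
    refine mem_firstSet.2 fun s' hs' => ?_
    rw [Equiv.trans_apply, Equiv.trans_apply, Equiv.swap_apply_right]
    apply hπ'
    rcases eq_or_ne s' s with rfl | h1
    · rw [Equiv.swap_apply_left]; exact ht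
    rcases eq_or_ne s' t with rfl | h2
    · rw [Equiv.swap_apply_right]; exact hs
    rw [Equiv.swap_apply_of_ne_of_ne h1 h2]
    exact hs'
  · intro π _ π' _ h
    have h1 : (Equiv.swap s t).trans ((Equiv.swap s t).trans π) =
        (Equiv.swap s t).trans ((Equiv.swap s t).trans π') := congrArg _ h
    rwa [← Equiv.trans_assoc, ← Equiv.trans_assoc, Equiv.swap_swap, Equiv.refl_trans,
      Equiv.refl_trans] at h1

theorem card_biUnion_firstSet {X : Type*} [Fintype X] [DecidableEq X] (S S' : Finset X)
    (hS : S ⊆ S') {t : X} (ht : t ∈ S') :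
    (S.biUnion (firstSet S')).card = S.card * (firstSet S' t).card := by
  rw [Finset.card_biUnion]
  · rw [Finset.sum_const_nat (m := (firstSet S' t).card)]
    intro s hs
    exact le_antisymm (card_firstSet_le (hS hs) ht) (card_firstSet_le ht (hS hs))
  · intro s hs s' hs' hne
    refine Finset.disjoint_left.2 ?_
    intro π h1 h2
    have h3 := mem_firstSet.1 h1 s' (hS hs')
    have h4 := mem_firstSet.1 h2 s (hS hs)
    exact hne (π.injective (le_antisymm h3 h4))

/-- In a uniformly random ordering of `X`, the first element of `S'` lies in `S ⊆ S'` with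
probability `|S| / |S'|`. -/
theorem card_first {X : Type*} [Fintype X] [DecidableEq X] (S S' : Finset X) (hS : S ⊆ S')
    (hne : S'.Nonempty) :
    (Finset.univ.filter (fun π : X ≃ Fin (Fintype.card X) =>
      ∃ s ∈ S, ∀ s' ∈ S', π s ≤ π s')).card * S'.card =
      S.card * Fintype.card (X ≃ Fin (Fintype.card X)) := by
  obtain ⟨t, ht⟩ := hne
  have h1 : Finset.univ.filter (fun π : X ≃ Fin (Fintype.card X) =>
      ∃ s ∈ S, ∀ s' ∈ S', π s ≤ π s') = S.biUnion (firstSet S') := by
    ext π
    simp [mem_firstSet]
  have h2 : (Finset.univ : Finset (X ≃ Fin (Fintype.card X))) = S'.biUnion (firstSet S') := by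
    ext π
    simp only [mem_univ, mem_biUnion, mem_firstSet, true_iff]
    exact Finset.exists_min_image S' π ⟨t, ht⟩
  have h3 : Fintype.card (X ≃ Fin (Fintype.card X)) = S'.card * (firstSet S' t).card :=
    (congrArg Finset.card h2).trans (card_biUnion_firstSet S' S' (Finset.Subset.refl _) ht)
  rw [h1, card_biUnion_firstSet S S' hS ht, h3]
  ring

end Vale.Agent.P249B
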