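import Mathlib
import Vale.Agent.Lib.P249B.Basic
import Vale.Agent.Lib.P249B.Kernel

/-!
Random partitions of a finite pseudometric space (first element of a ball in a random ordering)
and the truncated map `G`.
-/

open Finset

namespace Vale.Agent.P249B

variable {X ι : Type*} [Fintype X] [DecidableEq X] [LinearOrder ι] {ρ : X → X → ℝ}

omit [DecidableEq X] in
lemma exists_cen (h : PseudoD ρ) (π : X → ι) {r : ℝ} (hr : 0 ≤ r) (x : X) :
    ∃ c, ρ x c ≤ r ∧ ∀ y, ρ x y ≤ r → π c ≤ π y := by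
  classical
  obtain ⟨c, hc, hmin⟩ := Finset.exists_min_image (univ.filter (fun y => ρ x y ≤ r)) π
    ⟨x, by simp [h.self, hr]⟩
  refine ⟨c, by simpa using hc, fun y hy => hmin y (by simpa using hy)⟩

open Classical in
/-- the first point of the ball around `x` -/
noncomputable def cen (ρ : X → X → ℝ) (π : X → ι) (r : ℝ) (x : X) : X :=
  if h : ∃ c, ρ x c ≤ r ∧ ∀ y, ρ x y ≤ r → π c ≤ π y then h.choose else x

omit [DecidableEq X] in
lemma cen_eq_choose {π : X → ι} {r : ℝ} {x : X}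
    (h : ∃ c, ρ x c ≤ r ∧ ∀ y, ρ x y ≤ r → π c ≤ π y) : cen ρ π r x = h.choose := by
  unfold cen; rw [dif_pos h]

omit [DecidableEq X] in
lemma cen_le (h : PseudoD ρ) (π : X → ι) {r : ℝ} (hr : 0 ≤ r) (x : X) : ρ x (cen ρ π r x) ≤ r := by
  have he := exists_cen h π hr x
  rw [cen_eq_choose he]
  exact he.choose_spec.1

omit [DecidableEq X] in
lemma cen_min (h : PseudoD ρ) (π : X → ι) {r : ℝ} (hr : 0 ≤ r) (x : X) :
    ∀ y, ρ x y ≤ r → π (cen ρ π r x) ≤ π y := by
  have he := exists_cen h π hr x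
  rw [cen_eq_choose he]
  exact he.choose_spec.2

omit [DecidableEq X] in
lemma cen_eq (h : PseudoD ρ) {π : X → ι} (hπ : Function.Injective π) {r : ℝ} (hr : 0 ≤ r) {x c : X}
    (h1 : ρ x c ≤ r) (h2 : ∀ y, ρ x y ≤ r → π c ≤ π y) : cen ρ π r x = c := by
  apply hπ
  apply le_antisymm
  · exact cen_min h π hr x c h1
  · exact h2 _ (cen_le h π hr x)

/-- cutoff function near the boundary of clusters -/
noncomputable def eta (ρ : X → X → ℝ) (c : X → X) (t : ℝ) (x : X) : ℝ :=
  univ.inf' ⟨x, mem_univ x⟩ (fun y => if c y = c x then 1 else min 1 ((2 / t) * ρ x y))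

lemma eta_le_one (ρ : X → X → ℝ) (c : X → X) (t : ℝ) (x : X) : eta ρ c t x ≤ 1 := by
  unfold eta
  exact (Finset.inf'_le _ (mem_univ x)).trans (by simp)

lemma eta_nonneg (h : PseudoD ρ) (c : X → X) {t : ℝ} (ht : 0 < t) (x : X) : 0 ≤ eta ρ c t x := by
  unfold eta
  apply Finset.le_inf'
  intro y _
  split_ifs
  · norm_num
  · have := h.nonneg x y
    apply le_min (by norm_num)
    positivity

lemma eta_lip_aux (h : PseudoD ρ) (c : X → X) {t : ℝ} (ht : 0 < t) {x y : X} (hc : c x = c y) :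
    eta ρ c t x ≤ eta ρ c t y + (2 / t) * ρ x y := by
  rw [← sub_le_iff_le_add]
  conv_rhs => unfold eta
  apply Finset.le_inf'
  intro z _
  have h1 : eta ρ c t x ≤ (if c z = c x then 1 else min 1 ((2 / t) * ρ x z)) :=
    Finset.inf'_le _ (mem_univ z)
  have hxy := h.nonneg x y
  have h0 : 0 ≤ (2 / t) * ρ x y := by positivity
  rw [← hc]
  by_cases hz : c z = c x
  · rw [if_pos hz] at h1 ⊢
    linarith
  · rw [if_neg hz] at h1 ⊢
    apply le_min
    · have := min_le_left 1 ((2 / t) * ρ x z); linarith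
    · have h2 := min_le_right 1 ((2 / t) * ρ x z)
      have h3 := h.tri x y z
      have h4 : (2 / t) * ρ x z ≤ (2 / t) * (ρ x y + ρ y z) :=
        mul_le_mul_of_nonneg_left h3 (by positivity)
      linarith

lemma eta_lip (h : PseudoD ρ) (c : X → X) {t : ℝ} (ht : 0 < t) {x y : X} (hc : c x = c y) :
    |eta ρ c t x - eta ρ c t y| ≤ (2 / t) * ρ x y := by
  have h1 := eta_lip_aux h c ht hc
  have h2 := eta_lip_aux h c ht hc.symm
  rw [h.symm y x] at h2
  rw [abs_le]; constructor <;> linarith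

lemma eta_small (c : X → X) {t : ℝ} {x y : X} (hc : c x ≠ c y) :
    eta ρ c t x ≤ (2 / t) * ρ x y := by
  unfold eta
  refine (Finset.inf'_le _ (mem_univ y)).trans ?_
  rw [if_neg (Ne.symm hc)]
  exact min_le_right _ _

section G

variable {Ω : Type*} [Fintype Ω] {p : ℝ} {F : X → Ω → ℝ}

/-- the truncated map -/
noncomputable def Gm (ρ : X → X → ℝ) (c : X → X) (t : ℝ) (F : X → Ω → ℝ) (x : X) (ω : Ω) : ℝ :=
  eta ρ c t x * (F x ω - F (c x) ω)

lemma pseudoD_lp (hp : 1 ≤ p) {F : X → Ω → ℝ} :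
    PseudoD (fun x y => lp p (fun ω => F x ω - F y ω)) where
  self x := by simpa using lp_zero (ι := Ω) (by linarith : 0 < p)
  symm x y := lp_sub_comm _ _
  tri x y z := lp_tri hp _ _ _

lemma Gm_norm (hp : 1 ≤ p) (hρ : ∀ x y, ρ x y = lp p (fun ω => F x ω - F y ω))
    (h : PseudoD ρ) (c : X → X) {t : ℝ} (ht : 0 < t) (x : X) :
    lp p (Gm ρ c t F x) = eta ρ c t x * ρ x (c x) := by
  unfold Gm
  rw [lp_smul (by linarith), abs_of_nonneg (eta_nonneg h c ht x), hρ]

lemma Gm_le (hp : 1 ≤ p) (hρ : ∀ x y, ρ x y = lp p (fun ω => F x ω - F y ω))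
    (h : PseudoD ρ) (c : X → X) {t r : ℝ} (ht : 0 < t) (hc : ∀ x, ρ x (c x) ≤ r) (x : X) :
    lp p (Gm ρ c t F x) ≤ r := by
  rw [Gm_norm hp hρ h c ht]
  have h1 := eta_le_one ρ c t x
  have h2 := eta_nonneg h c ht x
  have h3 := h.nonneg x (c x)
  nlinarith [hc x]

lemma Gm_lip (hp : 1 ≤ p) (hρ : ∀ x y, ρ x y = lp p (fun ω => F x ω - F y ω))
    (h : PseudoD ρ) (c : X → X) {t r : ℝ} (ht : 0 < t) (hc : ∀ x, ρ x (c x) ≤ r) (x y : X) :
    lp p (fun ω => Gm ρ c t F x ω - Gm ρ c t F y ω) ≤ (4 * r / t + 1) * ρ x y := by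
  have hp0 : 0 < p := by linarith
  have hxy := h.nonneg x y
  have hr : 0 ≤ r := (h.nonneg x (c x)).trans (hc x)
  by_cases hcc : c x = c y
  · have e : (fun ω => Gm ρ c t F x ω - Gm ρ c t F y ω) = fun ω =>
        (eta ρ c t x - eta ρ c t y) * (F x ω - F (c x) ω) + eta ρ c t y * (F x ω - F y ω) := by
      funext ω
      unfold Gm
      rw [← hcc]
      ring
    rw [e]
    refine (lp_add_le hp _ _).trans ?_
    rw [lp_smul hp0, lp_smul hp0, ← hρ, ← hρ, abs_of_nonneg (eta_nonneg h c ht y)]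
    have h1 := eta_lip h c ht hcc
    have h2 := eta_le_one ρ c t y
    have h3 := hc x
    have h4 := h.nonneg x (c x)
    have h5 : |eta ρ c t x - eta ρ c t y| * ρ x (c x) ≤ (2 / t) * ρ x y * r :=
      mul_le_mul h1 h3 h4 (by positivity)
    have h6 : eta ρ c t y * ρ x y ≤ 1 * ρ x y := mul_le_mul_of_nonneg_right h2 hxy
    have h7 : (2 / t) * ρ x y * r ≤ 4 * r / t * ρ x y := by
      have : 4 * r / t * ρ x y = 2 * ((2 / t) * ρ x y * r) := by ring
      rw [this]
      have : 0 ≤ (2 / t) * ρ x y * r := by positivity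
      linarith
    linarith
  · refine (lp_sub_le hp _ _).trans ?_
    rw [Gm_norm hp hρ h c ht, Gm_norm hp hρ h c ht]
    have h1 := eta_small (ρ := ρ) c (t := t) hcc
    have h2 := eta_small (ρ := ρ) c (t := t) (Ne.symm hcc)
    rw [h.symm y x] at h2
    have h5 : eta ρ c t x * ρ x (c x) ≤ (2 / t) * ρ x y * r :=
      mul_le_mul h1 (hc x) (h.nonneg _ _) (by positivity)
    have h6 : eta ρ c t y * ρ y (c y) ≤ (2 / t) * ρ x y * r :=
      mul_le_mul h2 (hc y) (h.nonneg _ _) (by positivity)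
    have h7 : (2 / t) * ρ x y * r + (2 / t) * ρ x y * r = 4 * r / t * ρ x y := by ring
    linarith

/-- the padded event -/
lemma Gm_padded (h : PseudoD ρ) {π : X → ι} (hπ : Function.Injective π) {r t : ℝ} (ht : 0 < t)
    (htr : t ≤ r) {x c0 : X} (h1 : ρ x c0 ≤ r - t) (h2 : ∀ y, ρ x y ≤ r + t → π c0 ≤ π y)
    {y : X} (hy : ρ x y ≤ t / 2) (ω : Ω) :
    Gm ρ (cen ρ π r) t F x ω - Gm ρ (cen ρ π r) t F y ω = F x ω - F y ω := by
  have hr : 0 ≤ r := by linarith
  have hc : ∀ y, ρ x y ≤ t → cen ρ π r y = c0 := by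
    intro y hy
    apply cen_eq h hπ hr
    · have := h.tri y x c0
      rw [h.symm y x] at this
      linarith
    · intro z hz
      apply h2
      have := h.tri x y z
      linarith
  have he : ∀ y, ρ x y ≤ t / 2 → eta ρ (cen ρ π r) t y = 1 := by
    intro y hy
    apply le_antisymm (eta_le_one _ _ _ _)
    unfold eta
    apply Finset.le_inf'
    intro z _
    split_ifs with hz
    · exact le_rfl
    · apply le_min le_rfl
      have h3 : t < ρ x z := by
        by_contra hcon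
        push Not at hcon
        apply hz
        rw [hc z hcon, hc y (by linarith)]
      have h4 := h.tri x y z
      rw [div_mul_eq_mul_div, le_div_iff₀ ht]
      linarith
  have hx : ρ x x ≤ t / 2 := by rw [h.self]; positivity
  have hx' : ρ x x ≤ t := by rw [h.self]; positivity
  unfold Gm
  rw [he x hx, he y hy, hc x hx', hc y (by linarith)]
  ring

end G

/-- ball cardinalities -/
noncomputable def Nb (ρ : X → X → ℝ) (x : X) (v : ℝ) : ℕ := (univ.filter (fun y => ρ x y ≤ v)).card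

omit [DecidableEq X] in
lemma one_le_Nb (h : PseudoD ρ) (x : X) {v : ℝ} (hv : 0 ≤ v) : 1 ≤ Nb ρ x v := by
  unfold Nb
  exact Finset.card_pos.2 ⟨x, by simp [h.self, hv]⟩

omit [DecidableEq X] in
lemma Nb_le (x : X) (v : ℝ) : Nb ρ x v ≤ Fintype.card X := Finset.card_le_univ _

lemma sum_ratio (N : ℕ → ℝ) (n : ℝ) (h1 : ∀ a, 1 ≤ N a) (hn : ∀ a, N a ≤ n) (A : ℕ) :
    (A:ℝ) - Real.log n ≤ ∑ a ∈ range A, N a / N (a + 1) := by
  have h2 : ∀ a ∈ range A, 1 + (Real.log (N a) - Real.log (N (a + 1))) ≤ N a / N (a + 1) := by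
    intro a _
    have ha := h1 a
    have hb := h1 (a + 1)
    rw [← Real.log_div (by linarith) (by linarith)]
    have := Real.log_le_sub_one_of_pos (x := N a / N (a + 1)) (by positivity)
    linarith
  refine le_trans ?_ (Finset.sum_le_sum h2)
  rw [Finset.sum_add_distrib, Finset.sum_const, card_range, nsmul_eq_mul, mul_one]
  have h3 : ∑ a ∈ range A, (Real.log (N a) - Real.log (N (a + 1))) =
      Real.log (N 0) - Real.log (N A) := by
    have := Finset.sum_range_sub (fun a => Real.log (N a)) A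
    rw [← neg_inj, ← Finset.sum_neg_distrib]
    simp only [neg_sub]
    exact this
  rw [h3]
  have h4 : 0 ≤ Real.log (N 0) := Real.log_nonneg (h1 0)
  have h5 : Real.log (N A) ≤ Real.log n := Real.log_le_log (by linarith [h1 A]) (hn A)
  linarith

end Vale.Agent.P249B
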