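import Mathlib
import Vale.Agent.Lib.P249B.Basic
import Vale.Agent.Lib.P249B.Kernel
import Vale.Agent.Lib.P249B.Partition
import Vale.Agent.Lib.P249B.Order

/-!
The family of truncated maps indexed by a scale and an ordering.
-/

open Finset

namespace Vale.Agent.P249B

/-- scales -/
noncomputable def vA (v0 : ℝ) (κ : ℕ) (a : ℕ) : ℝ := v0 * (1 + 1 / (κ:ℝ)) ^ a

/-- radius -/
noncomputable def rA (v0 : ℝ) (κ : ℕ) (a : ℕ) : ℝ := (vA v0 κ a + vA v0 κ (a + 1)) / 2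

/-- padding -/
noncomputable def tA (v0 : ℝ) (κ : ℕ) (a : ℕ) : ℝ := (vA v0 κ (a + 1) - vA v0 κ a) / 2

section

variable {v0 : ℝ} {κ : ℕ}

lemma vA_pos (hv : 0 < v0) (a : ℕ) : 0 < vA v0 κ a := by unfold vA; positivity

lemma vA_succ (a : ℕ) : vA v0 κ (a + 1) = vA v0 κ a * (1 + 1 / (κ:ℝ)) := by
  unfold vA; rw [pow_succ]; ring

lemma tA_eq (a : ℕ) : tA v0 κ a = vA v0 κ a / (2 * κ) := by
  unfold tA
  rw [vA_succ]
  by_cases hk : (κ:ℝ) = 0
  · simp [hk]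
  · field_simp; ring

lemma tA_pos (hv : 0 < v0) (hκ : 1 ≤ κ) (a : ℕ) : 0 < tA v0 κ a := by
  rw [tA_eq]
  have := vA_pos (κ := κ) hv a
  have : (0:ℝ) < κ := by exact_mod_cast hκ
  positivity

lemma vA_ge (hv : 0 < v0) (a : ℕ) : v0 ≤ vA v0 κ a := by
  unfold vA
  have : (1:ℝ) ≤ (1 + 1 / (κ:ℝ)) ^ a := one_le_pow₀ (by
    have : (0:ℝ) ≤ 1 / (κ:ℝ) := by positivity
    linarith)
  nlinarith

lemma vA_mono (hv : 0 < v0) {a b : ℕ} (hab : a ≤ b) : vA v0 κ a ≤ vA v0 κ b := by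
  unfold vA
  apply mul_le_mul_of_nonneg_left _ hv.le
  apply pow_le_pow_right₀ _ hab
  have : (0:ℝ) ≤ 1 / (κ:ℝ) := by positivity
  linarith

lemma rA_sub (a : ℕ) : rA v0 κ a - tA v0 κ a = vA v0 κ a := by unfold rA tA; ring
lemma rA_add (a : ℕ) : rA v0 κ a + tA v0 κ a = vA v0 κ (a + 1) := by unfold rA tA; ring

lemma rA_le (hv : 0 < v0) (a : ℕ) : rA v0 κ a ≤ vA v0 κ (a + 1) := by
  unfold rA
  have := vA_mono (κ := κ) hv (Nat.le_succ a)
  have e : vA v0 κ a.succ = vA v0 κ (a + 1) := rfl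
  linarith

lemma rA_pos (hv : 0 < v0) (a : ℕ) : 0 < rA v0 κ a := by
  unfold rA
  have := vA_pos (κ := κ) hv a
  have := vA_pos (κ := κ) hv (a + 1)
  positivity

lemma tA_le_rA (hv : 0 < v0) (a : ℕ) : tA v0 κ a ≤ rA v0 κ a := by
  have := rA_sub (v0 := v0) (κ := κ) a
  have := vA_pos (κ := κ) hv a
  linarith

lemma ratio_eq (hv : 0 < v0) (hκ : 1 ≤ κ) (a : ℕ) :
    4 * rA v0 κ a / tA v0 κ a + 1 = 8 * κ + 5 := by
  have hk : (0:ℝ) < κ := by exact_mod_cast hκ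
  have h1 := vA_pos (κ := κ) hv a
  have : rA v0 κ a = vA v0 κ a * (1 + 1 / (2 * κ)) := by
    unfold rA; rw [vA_succ]; field_simp; ring
  rw [tA_eq, this]
  field_simp
  ring

lemma vA_top (hv : 0 < v0) (hκ : 1 ≤ κ) (T : ℕ) : vA v0 κ (κ * T) ≤ v0 * 4 ^ T := by
  unfold vA
  apply mul_le_mul_of_nonneg_left _ hv.le
  rw [pow_mul]
  have hk : (0:ℝ) < κ := by exact_mod_cast hκ
  have h1 : (1 + 1 / (κ:ℝ)) ^ κ ≤ 4 := by
    have h2 : 1 + 1 / (κ:ℝ) ≤ Real.exp (1 / κ) := by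
      have := Real.add_one_le_exp (1 / (κ:ℝ)); linarith
    calc (1 + 1 / (κ:ℝ)) ^ κ ≤ (Real.exp (1 / κ)) ^ κ :=
          pow_le_pow_left₀ (by positivity) h2 κ
      _ = Real.exp 1 := by
          rw [← Real.exp_nat_mul]; congr 1; field_simp
      _ ≤ 4 := by have := Real.exp_one_lt_d9; linarith
  exact pow_le_pow_left₀ (by positivity) h1 T

end

section

variable {X Ω : Type*} [Fintype X] [DecidableEq X] [Fintype Ω] {p : ℝ} {F : X → Ω → ℝ}
  {ρ : X → X → ℝ} {v0 : ℝ} {κ A : ℕ}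

/-- the truncated map for scale `a` and ordering `π` -/
noncomputable def Gt (ρ : X → X → ℝ) (F : X → Ω → ℝ) (v0 : ℝ) (κ A : ℕ)
    (θ : Fin A × (X ≃ Fin (Fintype.card X))) : X → Ω → ℝ :=
  Gm ρ (cen ρ (fun x => θ.2 x) (rA v0 κ θ.1)) (tA v0 κ θ.1) F

lemma Gt_norm (hp : 1 ≤ p) (hρ : ∀ x y, ρ x y = lp p (fun ω => F x ω - F y ω))
    (h : PseudoD ρ) (hv : 0 < v0) (hκ : 1 ≤ κ) {r : ℝ} (hr : vA v0 κ A ≤ r)
    (θ : Fin A × (X ≃ Fin (Fintype.card X))) (x : X) : lp p (Gt ρ F v0 κ A θ x) ≤ r := by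
  unfold Gt
  apply Gm_le hp hρ h _ (tA_pos hv hκ _)
  intro y
  refine (cen_le h _ (rA_pos hv _).le y).trans ?_
  refine (rA_le hv _).trans (le_trans ?_ hr)
  exact vA_mono hv θ.1.2

lemma Gt_lip (hp : 1 ≤ p) (hρ : ∀ x y, ρ x y = lp p (fun ω => F x ω - F y ω))
    (h : PseudoD ρ) (hv : 0 < v0) (hκ : 1 ≤ κ)
    (θ : Fin A × (X ≃ Fin (Fintype.card X))) (x y : X) :
    lp p (fun ω => Gt ρ F v0 κ A θ x ω - Gt ρ F v0 κ A θ y ω) ≤ (8 * κ + 5) * ρ x y := by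
  unfold Gt
  rw [← ratio_eq (κ := κ) hv hκ θ.1]
  apply Gm_lip hp hρ h _ (tA_pos hv hκ _)
  intro y
  exact cen_le h _ (rA_pos hv _).le y

open Classical in
lemma Gt_padded (h : PseudoD ρ) (hv : 0 < v0) (hκ : 1 ≤ κ)
    (hA : 2 * Real.log (Fintype.card X) ≤ A) (x : X) :
    (1 / 2 : ℝ) * Fintype.card (Fin A × (X ≃ Fin (Fintype.card X))) ≤
      ((univ.filter (fun θ : Fin A × (X ≃ Fin (Fintype.card X)) =>
        ∀ y, ρ x y ≤ v0 / (4 * κ) → ∀ ω, Gt ρ F v0 κ A θ x ω - Gt ρ F v0 κ A θ y ω =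
          F x ω - F y ω)).card : ℝ) := by
  have hk : (0:ℝ) < κ := by exact_mod_cast hκ
  set P : ℕ := Fintype.card (X ≃ Fin (Fintype.card X)) with hP
  -- the padded orderings for the scale `a`
  set S : ℕ → Finset (X ≃ Fin (Fintype.card X)) := fun a => univ.filter
    (fun π => ∃ s ∈ univ.filter (fun y => ρ x y ≤ vA v0 κ a),
      ∀ s' ∈ univ.filter (fun y => ρ x y ≤ vA v0 κ (a + 1)), π s ≤ π s') with hS
  have hcard : ∀ a, ((S a).card : ℝ) = P * ((Nb ρ x (vA v0 κ a) : ℝ) / Nb ρ x (vA v0 κ (a + 1))) := by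
    intro a
    have h1 := card_first (univ.filter (fun y => ρ x y ≤ vA v0 κ a))
      (univ.filter (fun y => ρ x y ≤ vA v0 κ (a + 1)))
      (fun y hy => by
        rw [mem_filter] at hy ⊢
        exact ⟨hy.1, hy.2.trans (vA_mono hv (Nat.le_succ a))⟩)
      ⟨x, by simp [h.self, (vA_pos hv _).le]⟩
    have h2 : (1:ℝ) ≤ Nb ρ x (vA v0 κ (a + 1)) := by
      exact_mod_cast one_le_Nb h x (vA_pos hv _).le
    rw [← mul_div_assoc, eq_div_iff (by positivity)]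
    have h3 : (S a).card * Nb ρ x (vA v0 κ (a + 1)) = Nb ρ x (vA v0 κ a) * P := by
      unfold Nb
      convert h1
    have h4 : ((S a).card : ℝ) * Nb ρ x (vA v0 κ (a + 1)) = Nb ρ x (vA v0 κ a) * P := by
      exact_mod_cast h3
    rw [h4]; ring
  -- union over scales
  have hsub : (univ.sigma (fun a : Fin A => S a)).card ≤
      (univ.filter (fun θ : Fin A × (X ≃ Fin (Fintype.card X)) =>
        ∀ y, ρ x y ≤ v0 / (4 * κ) → ∀ ω, Gt ρ F v0 κ A θ x ω - Gt ρ F v0 κ A θ y ω =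
          F x ω - F y ω)).card := by
    apply Finset.card_le_card_of_injOn (fun z => (z.1, z.2))
    · intro z hz
      rw [Finset.mem_coe, Finset.mem_sigma] at hz
      obtain ⟨-, hz2⟩ := hz
      have hz3 : ∃ s ∈ univ.filter (fun y => ρ x y ≤ vA v0 κ z.1),
        ∀ s' ∈ univ.filter (fun y => ρ x y ≤ vA v0 κ (z.1 + 1)), z.2 s ≤ z.2 s' := by
        simpa [hS] using hz2
      obtain ⟨c0, hc0, hmin⟩ := hz3
      rw [mem_filter] at hc0
      rw [Finset.mem_coe, mem_filter]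
      refine ⟨mem_univ _, fun y hy ω => ?_⟩
      unfold Gt
      refine Gm_padded h (π := fun x => z.2 x) z.2.injective (tA_pos hv hκ _)
        (tA_le_rA hv _) (x := x) (c0 := c0) ?_ ?_ ?_ ω
      · rw [rA_sub]; exact hc0.2
      · intro y hy
        rw [rA_add] at hy
        exact hmin y (by simp [hy])
      · refine hy.trans ?_
        rw [tA_eq]
        have := vA_ge (κ := κ) hv z.1
        have e : vA v0 κ z.1 / (2 * κ) / 2 = vA v0 κ z.1 / (4 * κ) := by field_simp; ring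
        rw [e]
        exact div_le_div_of_nonneg_right this (by positivity)
    · intro z _ z' _ hzz
      simp only [Prod.mk.injEq] at hzz
      obtain ⟨h1, h2⟩ := hzz
      exact Sigma.ext h1 (heq_of_eq h2)
  refine le_trans ?_ (Nat.cast_le.2 hsub)
  rw [Finset.card_sigma, Nat.cast_sum]
  simp_rw [hcard]
  rw [← Finset.mul_sum, Fintype.card_prod, Fintype.card_fin]
  have h5 := sum_ratio (fun a => (Nb ρ x (vA v0 κ a) : ℝ)) (Fintype.card X)
    (fun a => by exact_mod_cast one_le_Nb h x (vA_pos hv _).le)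
    (fun a => by exact_mod_cast Nb_le x _) A
  rw [Finset.sum_range] at h5
  have h6 : (A:ℝ) / 2 ≤ ∑ a : Fin A, (Nb ρ x (vA v0 κ a) : ℝ) / Nb ρ x (vA v0 κ (a + 1)) := by
    linarith
  push_cast
  have hP0 : (0:ℝ) ≤ P := Nat.cast_nonneg _
  nlinarith

end

end Vale.Agent.P249B
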