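import Mathlib
import Vale.Agent.Lib.P249B.Raw
import Vale.Agent.Lib.P249B.PosNeg
import Vale.Agent.Lib.P249B.LpSmooth

/-!
The hashed family.
-/

open Finset

namespace Vale.Agent.P249B

variable {X Ω β : Type*} [Fintype X] [DecidableEq X] [Fintype Ω] [DecidableEq Ω] [Fintype β]
  [DecidableEq β] {p : ℝ} {F : X → Ω → ℝ} {ρ : X → X → ℝ} {v0 : ℝ} {κ A : ℕ}

/-- the hashed family -/
noncomputable def Hf (ρ : X → X → ℝ) (F : X → Ω → ℝ) (v0 : ℝ) (κ A : ℕ) (p V : ℝ) (b0 : β)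
    (x : X) (θ : (Fin A × (X ≃ Fin (Fintype.card X))) × (Ω × Bool → β)) : ℝ :=
  Nh p V b0 θ.2 (pn (Gt ρ F v0 κ A θ.1 x))

lemma Hf_nonneg {V : ℝ} (hV : 0 ≤ V) (b0 : β) (x : X)
    (θ : (Fin A × (X ≃ Fin (Fintype.card X))) × (Ω × Bool → β)) :
    0 ≤ Hf ρ F v0 κ A p V b0 x θ := Nh_nonneg hV _ _ _

lemma Hf_le {V : ℝ} (b0 : β) (x : X)
    (θ : (Fin A × (X ≃ Fin (Fintype.card X))) × (Ω × Bool → β)) :
    Hf ρ F v0 κ A p V b0 x θ ≤ V := Nh_le _ _ _ _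

lemma card_split : (Fintype.card ((Fin A × (X ≃ Fin (Fintype.card X))) × (Ω × Bool → β)) : ℝ) =
    Fintype.card (Fin A × (X ≃ Fin (Fintype.card X))) * (Fintype.card (Ω × Bool → β) : ℝ) := by
  rw [Fintype.card_prod]; push_cast; ring

/-- the mass `(#Θ / B)^{1/p}` -/
noncomputable def mass (X Ω β : Type*) [Fintype X] [DecidableEq X] [Fintype Ω] [DecidableEq Ω]
    [Fintype β] (p : ℝ) (A : ℕ) : ℝ :=
  ((Fintype.card ((Fin A × (X ≃ Fin (Fintype.card X))) × (Ω × Bool → β)) : ℝ) /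
    Fintype.card β) ^ (1 / p)

lemma mass_nonneg : 0 ≤ mass X Ω β p A := by unfold mass; positivity

lemma mass_rpow (hp : 0 < p) : mass X Ω β p A ^ p =
    (Fintype.card ((Fin A × (X ≃ Fin (Fintype.card X))) × (Ω × Bool → β)) : ℝ) /
    Fintype.card β := by
  unfold mass
  rw [← Real.rpow_mul (by positivity), one_div, inv_mul_cancel₀ hp.ne', Real.rpow_one]

lemma Hf_lip (hp : 1 ≤ p) (hρ : ∀ x y, ρ x y = lp p (fun ω => F x ω - F y ω))
    (h : PseudoD ρ) (hv : 0 < v0) (hκ : 1 ≤ κ) (V : ℝ) (b0 : β) (x y : X) :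
    lp p (fun θ => Hf ρ F v0 κ A p V b0 x θ - Hf ρ F v0 κ A p V b0 y θ) ≤
      (mass X Ω β p A * (8 * κ + 5)) * ρ x y := by
  have hp0 : 0 < p := by linarith
  have hxy := h.nonneg x y
  have hm := mass_nonneg (X := X) (Ω := Ω) (β := β) (p := p) (A := A)
  rw [lp_le_iff hp0 _ (by positivity), mul_assoc, Real.mul_rpow hm (by positivity), mass_rpow hp0,
    card_split, Fintype.sum_prod_type]
  have h1 : ∀ θ : Fin A × (X ≃ Fin (Fintype.card X)),
      ∑ hh : Ω × Bool → β, |Hf ρ F v0 κ A p V b0 x (θ, hh) - Hf ρ F v0 κ A p V b0 y (θ, hh)| ^ p ≤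
      (Fintype.card (Ω × Bool → β) : ℝ) / Fintype.card β * ((8 * κ + 5) * ρ x y) ^ p := by
    intro θ
    have h2 := hash_upper hp V b0 (pn (Gt ρ F v0 κ A θ x)) (pn (Gt ρ F v0 κ A θ y))
    refine le_trans h2 ?_
    apply mul_le_mul_of_nonneg_left _ (by positivity)
    refine (sum_pn_sub hp (Gt ρ F v0 κ A θ x) (Gt ρ F v0 κ A θ y)).trans ?_
    rw [← lp_le_iff hp0 (fun ω => Gt ρ F v0 κ A θ x ω - Gt ρ F v0 κ A θ y ω) (by positivity)]
    exact Gt_lip hp hρ h hv hκ θ x y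
  refine (Finset.sum_le_sum fun θ _ => h1 θ).trans (le_of_eq ?_)
  rw [Finset.sum_const, Finset.card_univ, nsmul_eq_mul]
  ring

lemma Hf_norm (hp : 1 ≤ p) (hρ : ∀ x y, ρ x y = lp p (fun ω => F x ω - F y ω))
    (h : PseudoD ρ) (hv : 0 < v0) (hκ : 1 ≤ κ) {V : ℝ} (hV : 0 ≤ V) {r : ℝ} (hr : vA v0 κ A ≤ r)
    (b0 : β) (x : X) :
    lp p (Hf ρ F v0 κ A p V b0 x) ≤ mass X Ω β p A * r := by
  have hp0 : 0 < p := by linarith
  have hr0 : 0 ≤ r := (vA_pos hv _).le.trans hr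
  have hm := mass_nonneg (X := X) (Ω := Ω) (β := β) (p := p) (A := A)
  rw [lp_le_iff hp0 _ (by positivity), Real.mul_rpow hm hr0, mass_rpow hp0,
    card_split, Fintype.sum_prod_type]
  have h1 : ∀ θ : Fin A × (X ≃ Fin (Fintype.card X)),
      ∑ hh : Ω × Bool → β, |Hf ρ F v0 κ A p V b0 x (θ, hh)| ^ p ≤
      (Fintype.card (Ω × Bool → β) : ℝ) / Fintype.card β * r ^ p := by
    intro θ
    have h2 := hash_upper hp V b0 (pn (Gt ρ F v0 κ A θ x)) (fun _ => 0)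
    have e0 : ∀ hh : Ω × Bool → β, Nh p V b0 hh (fun _ => (0:ℝ)) = 0 := by
      intro hh
      unfold Nh
      have : rst b0 hh (fun _ => (0:ℝ)) = fun _ => 0 := by
        funext ω; unfold rst; split_ifs <;> rfl
      rw [this, lp_zero hp0]
      exact min_eq_right hV
    simp only [e0, sub_zero] at h2
    refine h2.trans ?_
    apply mul_le_mul_of_nonneg_left _ (by positivity)
    refine (sum_pn hp _).trans ?_
    rw [← lp_le_iff hp0 (Gt ρ F v0 κ A θ x) hr0]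
    exact Gt_norm hp hρ h hv hκ hr θ x
  refine (Finset.sum_le_sum fun θ _ => h1 θ).trans (le_of_eq ?_)
  rw [Finset.sum_const, Finset.card_univ, nsmul_eq_mul]
  ring

lemma Hf_lower (hp : 1 ≤ p) (hρ : ∀ x y, ρ x y = lp p (fun ω => F x ω - F y ω))
    (h : PseudoD ρ) (hv : 0 < v0) (hκ : 1 ≤ κ) (hA : 2 * Real.log (Fintype.card X) ≤ A)
    {V : ℝ} (hV : 0 < V) {r : ℝ} (hr : vA v0 κ A ≤ r) (b0 : β) {a Q : ℝ} (ha : 0 < a)
    (hQ : 1 ≤ Q) (hB : 4 * r ^ p ≤ Fintype.card β * (a / (8 * Q)) ^ p) {x y : X}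
    (hxy : ρ x y ≤ v0 / (4 * κ)) {m : ℝ} (hm : 0 ≤ m)
    (hmass : m + 2 * (a ^ p * r ^ p / V ^ p) ≤ levelMass p a Q (fun ω => F x ω - F y ω)) :
    (Fintype.card ((Fin A × (X ≃ Fin (Fintype.card X))) × (Ω × Bool → β)) : ℝ) /
      (4 * Fintype.card β) * ((1 / 4) ^ p * m) ≤
      ∑ θ, |Hf ρ F v0 κ A p V b0 x θ - Hf ρ F v0 κ A p V b0 y θ| ^ p := by
  classical
  have hp0 : 0 < p := by linarith
  haveI : Nonempty β := ⟨b0⟩
  have hβ : (0:ℝ) < Fintype.card β := by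
    have : 0 < Fintype.card β := Fintype.card_pos
    exact_mod_cast this
  have hpad := Gt_padded (F := F) h hv hκ hA x
  set Pd := univ.filter (fun θ : Fin A × (X ≃ Fin (Fintype.card X)) =>
        ∀ y, ρ x y ≤ v0 / (4 * κ) → ∀ ω, Gt ρ F v0 κ A θ x ω - Gt ρ F v0 κ A θ y ω =
          F x ω - F y ω) with hPd
  rw [Fintype.sum_prod_type]
  have h1 : ∀ θ ∈ Pd, (Fintype.card (Ω × Bool → β) : ℝ) / (2 * Fintype.card β) *
      ((1 / 4) ^ p * m) ≤
      ∑ hh : Ω × Bool → β, |Hf ρ F v0 κ A p V b0 x (θ, hh) - Hf ρ F v0 κ A p V b0 y (θ, hh)| ^ p := by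
    intro θ hθ
    rw [hPd, mem_filter] at hθ
    have h2 := hθ.2 y hxy
    have h3 := hash_lower_signed hp ha hQ hV b0 (Gt ρ F v0 κ A θ x) (Gt ρ F v0 κ A θ y)
      (r := r) (by
        rw [← lp_le_iff hp0 _ ((vA_pos hv _).le.trans hr)]
        exact Gt_norm hp hρ h hv hκ hr θ x) (by
        rw [← lp_le_iff hp0 _ ((vA_pos hv _).le.trans hr)]
        exact Gt_norm hp hρ h hv hκ hr θ y) hB
    refine le_trans ?_ h3
    apply mul_le_mul_of_nonneg_left _ (by positivity)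
    apply mul_le_mul_of_nonneg_left _ (by positivity)
    have e : (fun ω => Gt ρ F v0 κ A θ x ω - Gt ρ F v0 κ A θ y ω) = fun ω => F x ω - F y ω :=
      funext h2
    rw [e]
    linarith
  calc (Fintype.card ((Fin A × (X ≃ Fin (Fintype.card X))) × (Ω × Bool → β)) : ℝ) /
      (4 * Fintype.card β) * ((1 / 4) ^ p * m)
      = ((1 / 2 : ℝ) * Fintype.card (Fin A × (X ≃ Fin (Fintype.card X)))) *
        ((Fintype.card (Ω × Bool → β) : ℝ) / (2 * Fintype.card β) * ((1 / 4) ^ p * m)) := by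
        rw [card_split]; field_simp; ring
    _ ≤ (Pd.card : ℝ) *
        ((Fintype.card (Ω × Bool → β) : ℝ) / (2 * Fintype.card β) * ((1 / 4) ^ p * m)) :=
        mul_le_mul_of_nonneg_right hpad (by positivity)
    _ = ∑ _θ ∈ Pd, (Fintype.card (Ω × Bool → β) : ℝ) / (2 * Fintype.card β) *
        ((1 / 4) ^ p * m) := by rw [Finset.sum_const, nsmul_eq_mul]
    _ ≤ ∑ θ ∈ Pd, ∑ hh : Ω × Bool → β,
        |Hf ρ F v0 κ A p V b0 x (θ, hh) - Hf ρ F v0 κ A p V b0 y (θ, hh)| ^ p :=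
        Finset.sum_le_sum h1
    _ ≤ _ := by
        apply Finset.sum_le_sum_of_subset_of_nonneg (Finset.subset_univ _)
        intro θ _ _
        exact Finset.sum_nonneg fun _ _ => Real.rpow_nonneg (abs_nonneg _) _

end Vale.Agent.P249B
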