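import Mathlib

/-!
# P249: sampling a family of small nonnegative functions (Chernoff bound by hand)
-/

namespace Vale.Agent.P249B

open Finset

/-- The exponential moment of a sum over tuples. -/
theorem sum_exp_tuple {Θ : Type*} [Fintype Θ] (y : Θ → ℝ) (N : ℕ) :
    ∑ τ : Fin N → Θ, Real.exp (∑ i, y (τ i)) = (∑ θ, Real.exp (y θ)) ^ N := by
  classical
  rw [Fintype.sum_pow (fun θ => Real.exp (y θ)) N]
  refine Finset.sum_congr rfl fun τ _ => ?_
  rw [Real.exp_sum]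

theorem exp_le_one_add_two {x : ℝ} (h0 : 0 ≤ x) (h1 : x ≤ 1) : Real.exp x ≤ 1 + 2 * x := by
  have h := Real.abs_exp_sub_one_le (x := x) (by rw [abs_of_nonneg h0]; exact h1)
  rw [abs_of_nonneg h0] at h
  have h2 := (abs_le.mp h).2
  linarith

theorem exp_neg_le_one_sub_half {x : ℝ} (h0 : 0 ≤ x) (h1 : x ≤ 1) :
    Real.exp (-x) ≤ 1 - x / 2 := by
  have h := Real.add_one_le_exp x
  have hpos : 0 < x + 1 := by linarith
  have h2 : Real.exp (-x) ≤ (x + 1)⁻¹ := by
    rw [Real.exp_neg]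
    exact inv_anti₀ hpos h
  refine h2.trans ?_
  rw [inv_le_iff_one_le_mul₀ hpos]
  nlinarith

theorem sum_exp_up {Θ : Type*} [Fintype Θ] (y : Θ → ℝ) {U : ℝ}
    (h0 : ∀ θ, 0 ≤ y θ) (h1 : ∀ θ, y θ ≤ 1) (hup : ∑ θ, y θ ≤ U * Fintype.card Θ) :
    ∑ θ, Real.exp (y θ) ≤ Fintype.card Θ * Real.exp (2 * U) := by
  have h2 : ∑ θ, Real.exp (y θ) ≤ ∑ θ, (1 + 2 * y θ) :=
    Finset.sum_le_sum fun θ _ => exp_le_one_add_two (h0 θ) (h1 θ)
  rw [Finset.sum_add_distrib, ← Finset.mul_sum] at h2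
  simp only [Finset.sum_const, Finset.card_univ, nsmul_eq_mul, mul_one] at h2
  have h3 := Real.add_one_le_exp (2 * U)
  have hc : (0 : ℝ) ≤ Fintype.card Θ := Nat.cast_nonneg _
  nlinarith [mul_le_mul_of_nonneg_left h3 hc]

theorem sum_exp_low {Θ : Type*} [Fintype Θ] (y : Θ → ℝ) {l : ℝ}
    (h0 : ∀ θ, 0 ≤ y θ) (h1 : ∀ θ, y θ ≤ 1) (hlow : l * Fintype.card Θ ≤ ∑ θ, y θ) :
    ∑ θ, Real.exp (-y θ) ≤ Fintype.card Θ * Real.exp (-(l / 2)) := by
  have h2 : ∑ θ, Real.exp (-y θ) ≤ ∑ θ, (1 - y θ / 2) :=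
    Finset.sum_le_sum fun θ _ => exp_neg_le_one_sub_half (h0 θ) (h1 θ)
  rw [Finset.sum_sub_distrib, ← Finset.sum_div] at h2
  simp only [Finset.sum_const, Finset.card_univ, nsmul_eq_mul, mul_one] at h2
  have h3 := Real.add_one_le_exp (-(l / 2))
  have hc : (0 : ℝ) ≤ Fintype.card Θ := Nat.cast_nonneg _
  nlinarith [mul_le_mul_of_nonneg_left h3 hc]

theorem exists_sample {Θ E : Type*} [Fintype Θ] [Nonempty Θ] [Fintype E] (Y : E → Θ → ℝ)
    (low : Set E) {Λ U ℓ : ℝ} (hΛ : 0 < Λ) (hℓ : 0 < ℓ) (hU : ℓ ≤ U)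
    (h0 : ∀ e θ, 0 ≤ Y e θ) (h1 : ∀ e θ, Y e θ ≤ Λ)
    (hup : ∀ e, ∑ θ, Y e θ ≤ U * Fintype.card Θ)
    (hlow : ∀ e ∈ low, ℓ * Fintype.card Θ ≤ ∑ θ, Y e θ) (N : ℕ)
    (hN : 4 * Λ / ℓ * Real.log (2 * Fintype.card E + 1) < N) :
    ∃ τ : Fin N → Θ, (∀ e, ∑ i, Y e (τ i) ≤ 4 * U * N) ∧
      (∀ e ∈ low, ℓ / 4 * N ≤ ∑ i, Y e (τ i)) := by
  classical
  by_contra hcon
  push Not at hcon
  have hNpos : (0 : ℝ) < N := by
    refine lt_of_le_of_lt ?_ hN
    refine mul_nonneg (by positivity) (Real.log_nonneg ?_)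
    have : (0 : ℝ) ≤ Fintype.card E := Nat.cast_nonneg _
    linarith
  have hθpos : (0 : ℝ) < Fintype.card Θ := Nat.cast_pos.mpr Fintype.card_pos
  -- normalised functions
  set y : E → Θ → ℝ := fun e θ => Y e θ / Λ with hy
  have y0 : ∀ e θ, 0 ≤ y e θ := fun e θ => div_nonneg (h0 e θ) hΛ.le
  have y1 : ∀ e θ, y e θ ≤ 1 := fun e θ => (div_le_one hΛ).mpr (h1 e θ)
  have yup : ∀ e, ∑ θ, y e θ ≤ U / Λ * Fintype.card Θ := by
    intro e
    rw [hy, ← Finset.sum_div, div_mul_eq_mul_div]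
    exact div_le_div_of_nonneg_right (hup e) hΛ.le
  have ylow : ∀ e ∈ low, ℓ / Λ * Fintype.card Θ ≤ ∑ θ, y e θ := by
    intro e he
    rw [hy, ← Finset.sum_div, div_mul_eq_mul_div]
    exact div_le_div_of_nonneg_right (hlow e he) hΛ.le
  -- the weight
  set A : E → (Fin N → Θ) → ℝ := fun e τ => Real.exp (∑ i, y e (τ i)) * Real.exp (-(4 * U * N / Λ))
    with hA
  set B : E → (Fin N → Θ) → ℝ := fun e τ =>
    if e ∈ low then Real.exp (∑ i, -y e (τ i)) * Real.exp (ℓ / 4 * N / Λ) else 0 with hB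
  have hApos : ∀ e τ, 0 ≤ A e τ := fun e τ => by rw [hA]; positivity
  have hBpos : ∀ e τ, 0 ≤ B e τ := fun e τ => by
    simp only [hB]; split_ifs <;> positivity
  have hsum1 : ∀ τ, 1 ≤ ∑ e, (A e τ + B e τ) := by
    intro τ
    by_cases hτ : ∀ e, ∑ i, Y e (τ i) ≤ 4 * U * N
    · obtain ⟨e, he, hlt⟩ := hcon τ hτ
      refine le_trans ?_ (Finset.single_le_sum (f := fun e => A e τ + B e τ)
        (fun e _ => add_nonneg (hApos e τ) (hBpos e τ)) (Finset.mem_univ e))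
      have : 1 ≤ B e τ := by
        simp only [hB, if_pos he]
        rw [← Real.exp_add]
        refine Real.one_le_exp ?_
        rw [Finset.sum_neg_distrib]
        have : ∑ i, y e (τ i) ≤ ℓ / 4 * N / Λ := by
          rw [hy, ← Finset.sum_div]
          exact div_le_div_of_nonneg_right hlt.le hΛ.le
        linarith
      have := hApos e τ
      show 1 ≤ A e τ + B e τ
      linarith
    · push Not at hτ
      obtain ⟨e, hlt⟩ := hτ
      refine le_trans ?_ (Finset.single_le_sum (f := fun e => A e τ + B e τ)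
        (fun e _ => add_nonneg (hApos e τ) (hBpos e τ)) (Finset.mem_univ e))
      have : 1 ≤ A e τ := by
        simp only [hA]
        rw [← Real.exp_add]
        refine Real.one_le_exp ?_
        have : 4 * U * N / Λ ≤ ∑ i, y e (τ i) := by
          rw [hy, ← Finset.sum_div]
          exact div_le_div_of_nonneg_right hlt.le hΛ.le
        linarith
      have := hBpos e τ
      show 1 ≤ A e τ + B e τ
      linarith
  have htot : ((Fintype.card Θ : ℝ)) ^ N ≤ ∑ τ : Fin N → Θ, ∑ e, (A e τ + B e τ) := by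
    have : ∑ τ : Fin N → Θ, (1 : ℝ) ≤ ∑ τ : Fin N → Θ, ∑ e, (A e τ + B e τ) :=
      Finset.sum_le_sum fun τ _ => hsum1 τ
    simpa using this
  rw [Finset.sum_comm] at htot
  -- each summand is small
  have hterm : ∀ e, ∑ τ : Fin N → Θ, (A e τ + B e τ) ≤
      (Fintype.card Θ : ℝ) ^ N * (2 * Real.exp (-(ℓ / 4 * N / Λ))) := by
    intro e
    rw [Finset.sum_add_distrib]
    have hAe : ∑ τ : Fin N → Θ, A e τ ≤
        (Fintype.card Θ : ℝ) ^ N * Real.exp (-(ℓ / 4 * N / Λ)) := by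
      simp only [hA]
      rw [← Finset.sum_mul, sum_exp_tuple]
      have h := sum_exp_up (y e) (y0 e) (y1 e) (yup e)
      have hnn : 0 ≤ ∑ θ, Real.exp (y e θ) := Finset.sum_nonneg fun θ _ => (Real.exp_pos _).le
      have h' := pow_le_pow_left₀ hnn h N
      refine (mul_le_mul_of_nonneg_right h' (Real.exp_pos _).le).trans ?_
      rw [mul_pow, mul_assoc, ← Real.exp_nat_mul, ← Real.exp_add]
      refine mul_le_mul_of_nonneg_left ?_ (by positivity)
      refine Real.exp_le_exp.mpr ?_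
      have e1 : (N : ℝ) * (2 * (U / Λ)) + -(4 * U * N / Λ) = -(2 * U * N / Λ) := by
        field_simp
        ring
      rw [e1, neg_le_neg_iff]
      refine div_le_div_of_nonneg_right ?_ hΛ.le
      nlinarith
    have hBe : ∑ τ : Fin N → Θ, B e τ ≤
        (Fintype.card Θ : ℝ) ^ N * Real.exp (-(ℓ / 4 * N / Λ)) := by
      simp only [hB]
      by_cases he : e ∈ low
      · simp only [if_pos he]
        rw [← Finset.sum_mul, sum_exp_tuple (fun θ => -y e θ)]
        have h := sum_exp_low (y e) (y0 e) (y1 e) (ylow e he)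
        have hnn : 0 ≤ ∑ θ, Real.exp (-y e θ) :=
          Finset.sum_nonneg fun θ _ => (Real.exp_pos _).le
        have h' := pow_le_pow_left₀ hnn h N
        refine (mul_le_mul_of_nonneg_right h' (Real.exp_pos _).le).trans ?_
        rw [mul_pow, mul_assoc, ← Real.exp_nat_mul, ← Real.exp_add]
        refine mul_le_mul_of_nonneg_left ?_ (by positivity)
        refine Real.exp_le_exp.mpr (le_of_eq ?_)
        field_simp
        ring
      · simp only [if_neg he, Finset.sum_const_zero]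
        positivity
    linarith
  have hfin : (Fintype.card Θ : ℝ) ^ N ≤
      Fintype.card E * ((Fintype.card Θ : ℝ) ^ N * (2 * Real.exp (-(ℓ / 4 * N / Λ)))) := by
    refine htot.trans ?_
    refine (Finset.sum_le_sum fun e _ => hterm e).trans (le_of_eq ?_)
    rw [Finset.sum_const, Finset.card_univ, nsmul_eq_mul]
  have hpowpos : (0 : ℝ) < (Fintype.card Θ : ℝ) ^ N := by positivity
  have hone : 1 ≤ 2 * (Fintype.card E : ℝ) * Real.exp (-(ℓ / 4 * N / Λ)) := by
    by_contra hlt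
    push Not at hlt
    have := mul_lt_mul_of_pos_left hlt hpowpos
    nlinarith
  have hlog : Real.log (2 * Fintype.card E + 1) < ℓ / 4 * N / Λ := by
    have e1 : ℓ / 4 * N / Λ = N / (4 * Λ / ℓ) := by
      field_simp
    rw [e1, lt_div_iff₀ (by positivity)]
    linarith
  have hE : (0 : ℝ) ≤ Fintype.card E := Nat.cast_nonneg _
  have hlt : 2 * (Fintype.card E : ℝ) + 1 < Real.exp (ℓ / 4 * N / Λ) := by
    rwa [Real.log_lt_iff_lt_exp (by linarith)] at hlog
  have hmul : 2 * (Fintype.card E : ℝ) * Real.exp (-(ℓ / 4 * N / Λ)) <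
      Real.exp (ℓ / 4 * N / Λ) * Real.exp (-(ℓ / 4 * N / Λ)) :=
    mul_lt_mul_of_pos_right (by linarith) (Real.exp_pos _)
  rw [← Real.exp_add, add_neg_cancel, Real.exp_zero] at hmul
  linarith

end Vale.Agent.P249B
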