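import Mathlib
import Vale.Agent.Lib.P249B.Family
import Vale.Agent.Lib.P249B.Sampling

/-!
One level: a low dimensional map capturing the pairs at scale `s` with mass at level `a`.
-/

open Finset

namespace Vale.Agent.P249B

lemma rpow_ge_self_of_one_le {p x : ℝ} (hp : 1 ≤ p) (hx : 1 ≤ x) : x ≤ x ^ p := by
  calc x = x ^ (1:ℝ) := (Real.rpow_one x).symm
    _ ≤ x ^ p := Real.rpow_le_rpow_of_exponent_le hx hp

section

variable {X Ω : Type} [Fintype X] [DecidableEq X] [Fintype Ω] [DecidableEq Ω]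
  {p : ℝ} {F : X → Ω → ℝ} {ρ : X → X → ℝ}

lemma pseudoD_of_eq (hp : 1 ≤ p) (hρ : ∀ x y, ρ x y = lp p (fun ω => F x ω - F y ω)) :
    PseudoD ρ := by
  have : ρ = fun x y => lp p (fun ω => F x ω - F y ω) := funext fun x => funext fun y => hρ x y
  rw [this]
  exact pseudoD_lp hp

lemma lost_le {J : ℕ} (hp : 1 ≤ p) (hJ : 1 ≤ J) {s a r V ρxy : ℝ} (hs : 0 < s) (ha : 0 < a)
    (hr : 0 < r) (hV : V = 16 * J * a * r / s) (h9 : 9 / 10 * s ≤ ρxy) :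
    2 * (a ^ p * r ^ p / V ^ p) ≤ ρxy ^ p / (4 * J) := by
  have hp0 : 0 < p := by linarith
  have hJ' : (1:ℝ) ≤ J := by exact_mod_cast hJ
  have hV0 : 0 < V := by rw [hV]; positivity
  have e1 : a ^ p * r ^ p / V ^ p = (s / (16 * J)) ^ p := by
    rw [← Real.mul_rpow ha.le hr.le, ← Real.div_rpow (by positivity) hV0.le, hV]
    congr 1
    field_simp
  have e2 : s / (16 * J) = (9 / 10 * s) * (1 / (72 / 5 * J)) := by field_simp; norm_num
  rw [e1, e2, Real.mul_rpow (by positivity) (by positivity)]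
  have h1 : (9 / 10 * s) ^ p ≤ ρxy ^ p := Real.rpow_le_rpow (by positivity) h9 hp0.le
  have h2 : (1 / (72 / 5 * (J:ℝ))) ^ p ≤ 1 / (72 / 5 * J) := by
    have h3 : (72 / 5 * (J:ℝ)) ≤ (72 / 5 * (J:ℝ)) ^ p :=
      rpow_ge_self_of_one_le hp (by linarith)
    rw [Real.div_rpow (by norm_num) (by positivity), Real.one_rpow]
    exact one_div_le_one_div_of_le (by positivity) h3
  calc 2 * ((9 / 10 * s) ^ p * (1 / (72 / 5 * (J:ℝ))) ^ p)
      ≤ 2 * (ρxy ^ p * (1 / (72 / 5 * J))) := by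
        apply mul_le_mul_of_nonneg_left _ (by norm_num)
        exact mul_le_mul h1 h2 (by positivity) (by
          exact Real.rpow_nonneg (le_trans (by positivity) h9) p)
    _ ≤ ρxy ^ p / (4 * J) := by
        have : 0 ≤ ρxy ^ p := Real.rpow_nonneg (le_trans (by positivity) h9) p
        rw [mul_one_div, mul_div_assoc', div_le_div_iff₀ (by positivity) (by positivity)]
        nlinarith [mul_nonneg this (by positivity : (0:ℝ) ≤ J)]


section smooth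

variable {Θ : Type} [Fintype Θ] {Hx : X → Θ → ℝ} {K T J : ℕ} {s V r m : ℝ}

omit [DecidableEq X] in
lemma fam_sup (h : PseudoD ρ) (hT : 1 ≤ T) (hs : 0 < s) (hsr : s ≤ r)
    (h0 : ∀ x θ, 0 ≤ Hx x θ) (h1 : ∀ x θ, Hx x θ ≤ V) (hV : 0 < V) (x y : X) (θ : Θ) :
    |sm (kav ρ T (s / 4 ^ T)) Hx x θ - sm (kav ρ T (s / 4 ^ T)) Hx y θ| ≤
        (4 * V * 4 ^ T / s) * min (ρ x y) r := by
  have hQ1 : (1:ℝ) ≤ 4 ^ T := one_le_pow₀ (by norm_num)
  set Q : ℝ := 4 ^ T with hQ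
  have hQ0 : 0 < Q := by linarith
  have hR0 : 0 < s / Q := by positivity
  have h2 := sm_sup h hT hR0 h0 h1 x y θ
  have h3 : |sm (kav ρ T (s / Q)) Hx x θ - sm (kav ρ T (s / Q)) Hx y θ| ≤ V := by
    have ha1 := sm_nonneg (kav_nonneg ρ T (s / Q)) h0
    have ha2 := sm_le (kav_nonneg ρ T (s / Q)) (kav_sum ρ hT (s / Q)) h1
    rw [abs_le]
    have := ha1 x θ; have := ha1 y θ; have := ha2 x θ; have := ha2 y θ
    constructor <;> linarith
  have h4 : V ≤ (4 * V * Q / s) * r := by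
    rw [div_mul_eq_mul_div, le_div_iff₀ hs]
    have : s ≤ 4 * Q * r := by nlinarith
    nlinarith
  rw [mul_min_of_nonneg _ _ (by positivity)]
  apply le_min
  · refine h2.trans (le_of_eq ?_)
    field_simp
  · exact h3.trans h4

omit [DecidableEq X] in
lemma fam_upper (hp : 1 ≤ p) (h : PseudoD ρ) (hK : 1 ≤ K) (hT : 1 ≤ T) (hs : 0 < s) (hm : 0 ≤ m)
    (hr : 0 ≤ r) (hn : Real.log (Fintype.card X) ≤ 3 / 2 * K * T)
    (hlip : ∀ x y, lp p (fun θ => Hx x θ - Hx y θ) ≤ (m * (29 * K)) * ρ x y)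
    (hnorm : ∀ x, lp p (Hx x) ≤ m * r) (x y : X) :
    lp p (fun θ => sm (kav ρ T (s / 4 ^ T)) Hx x θ - sm (kav ρ T (s / 4 ^ T)) Hx y θ) ≤
      m * (725 * K ^ 2 * min (ρ x y) r) := by
  have hK' : (1:ℝ) ≤ K := by exact_mod_cast hK
  have hT' : (1:ℝ) ≤ T := by exact_mod_cast hT
  have hR0 : 0 < s / 4 ^ T := by positivity
  have hρ0 := h.nonneg x y
  have hlogT : 16 * Real.log (Fintype.card X) / T ≤ 24 * K := by
    rw [div_le_iff₀ (by linarith)]; linarith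
  have h1 : lp p (fun θ => sm (kav ρ T (s / 4 ^ T)) Hx x θ - sm (kav ρ T (s / 4 ^ T)) Hx y θ) ≤
      m * (725 * K ^ 2 * ρ x y) := by
    refine (lp_sm_lip hp h hT hR0 (by positivity) hlip x y).trans ?_
    have e : m * (29 * K) * ρ x y * (1 + 16 * Real.log (Fintype.card X) / T) =
      (m * ρ x y * (29 * K)) * (1 + 16 * Real.log (Fintype.card X) / T) := by ring
    have e2 : m * (725 * (K:ℝ) ^ 2 * ρ x y) = (m * ρ x y * (29 * K)) * (25 * K) := by ring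
    rw [e, e2]
    apply mul_le_mul_of_nonneg_left _ (by positivity)
    linarith
  have h2 : lp p (fun θ => sm (kav ρ T (s / 4 ^ T)) Hx x θ - sm (kav ρ T (s / 4 ^ T)) Hx y θ) ≤
      m * (725 * K ^ 2 * r) := by
    refine (lp_sub_le hp _ _).trans ?_
    have h3 := lp_sm_bound hp (kav_nonneg ρ T (s / 4 ^ T)) (kav_sum ρ hT (s / 4 ^ T)) hnorm
    have h4 := h3 x
    have h5 := h3 y
    have h6 : 2 * (m * r) ≤ m * (725 * K ^ 2 * r) := by
      have : (1:ℝ) ≤ K ^ 2 := one_le_pow₀ hK'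
      have hmr : 0 ≤ m * r := by positivity
      nlinarith
    change lp p (sm (kav ρ T (s / 4 ^ T)) Hx x) + lp p (sm (kav ρ T (s / 4 ^ T)) Hx y) ≤ _
    linarith
  rcases min_choice (ρ x y) r with h3 | h3 <;> rw [h3]
  · exact h1
  · exact h2

omit [DecidableEq X] in
lemma fam_err (hp : 1 ≤ p) (h : PseudoD ρ) (hK : 1 ≤ K) (hT : 1 ≤ T) (hJ : 1 ≤ J) (hs : 0 < s)
    (hm : 0 ≤ m) (hn : Real.log (Fintype.card X) ≤ 3 / 2 * K * T)
    (hTbig : 87 * (K:ℝ) ^ 2 * T / 2 ^ T ≤ 9 / 20 / (64 * J))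
    (hlip : ∀ x y, lp p (fun θ => Hx x θ - Hx y θ) ≤ (m * (29 * K)) * ρ x y) (z : X) :
    lp p (fun θ => sm (kav ρ T (s / 4 ^ T)) Hx z θ - Hx z θ) ≤ m * (9 / 40 / (64 * J) * s) := by
  have hK' : (1:ℝ) ≤ K := by exact_mod_cast hK
  have hJ' : (1:ℝ) ≤ J := by exact_mod_cast hJ
  have hR0 : 0 < s / 4 ^ T := by positivity
  refine (lp_sm_self hp h hT hR0 (by positivity) hlip z).trans ?_
  have hlog0 : 0 ≤ Real.log (Fintype.card X) := Real.log_natCast_nonneg _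
  have e1 : (2:ℝ) ^ T * (s / 4 ^ T) = s / 2 ^ T := by
    have : (4:ℝ) ^ T = 2 ^ T * 2 ^ T := by
      rw [← mul_pow]; norm_num
    rw [this]; field_simp
  rw [e1]
  calc m * (29 * K) * (s / 2 ^ T * Real.log (Fintype.card X))
      ≤ m * (29 * K) * (s / 2 ^ T * (3 / 2 * K * T)) := by
        apply mul_le_mul_of_nonneg_left _ (by positivity)
        exact mul_le_mul_of_nonneg_left hn (by positivity)
    _ = m * ((87 * (K:ℝ) ^ 2 * T / 2 ^ T) / 2 * s) := by field_simp; ring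
    _ ≤ m * ((9 / 20 / (64 * J)) / 2 * s) := by
        apply mul_le_mul_of_nonneg_left _ hm
        apply mul_le_mul_of_nonneg_right _ hs.le
        linarith
    _ = _ := by ring

omit [DecidableEq X] in
lemma fam_lower (hp : 1 ≤ p) (h : PseudoD ρ) (hK : 1 ≤ K) (hT : 1 ≤ T) (hJ : 1 ≤ J) (hs : 0 < s)
    (hm : 0 ≤ m) (hn : Real.log (Fintype.card X) ≤ 3 / 2 * K * T)
    (hTbig : 87 * (K:ℝ) ^ 2 * T / 2 ^ T ≤ 9 / 20 / (64 * J))
    (hlip : ∀ x y, lp p (fun θ => Hx x θ - Hx y θ) ≤ (m * (29 * K)) * ρ x y) {x y : X}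
    (h9 : 9 / 10 * s ≤ ρ x y) (hraw : m * (1 / (64 * J) * ρ x y) ≤
      lp p (fun θ => Hx x θ - Hx y θ)) :
    m * (1 / (128 * J) * ρ x y) ≤
      lp p (fun θ => sm (kav ρ T (s / 4 ^ T)) Hx x θ - sm (kav ρ T (s / 4 ^ T)) Hx y θ) := by
  have hJ' : (1:ℝ) ≤ J := by exact_mod_cast hJ
  have herr := fam_err hp h hK hT hJ hs hm hn hTbig hlip
  set b := sm (kav ρ T (s / 4 ^ T)) Hx with hb
  have htri : lp p (fun θ => Hx x θ - Hx y θ) ≤ lp p (fun θ => b x θ - Hx x θ) +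
      lp p (fun θ => b x θ - b y θ) + lp p (fun θ => b y θ - Hx y θ) := by
    have h1 := lp_tri hp (Hx x) (b x) (Hx y)
    have h2 := lp_tri hp (b x) (b y) (Hx y)
    rw [lp_sub_comm (Hx x) (b x)] at h1
    linarith
  have h1 := herr x
  have h2 := herr y
  have h3 : m * (9 / 40 / (64 * J) * s) + m * (9 / 40 / (64 * J) * s) ≤
      m * (1 / (128 * J) * ρ x y) := by
    rw [← mul_add]
    apply mul_le_mul_of_nonneg_left _ hm
    have e : 9 / 40 / (64 * (J:ℝ)) * s + 9 / 40 / (64 * J) * s =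
      1 / (128 * J) * (9 / 10 * s) := by field_simp; norm_num
    rw [e]
    exact mul_le_mul_of_nonneg_left h9 (by positivity)
  have e : m * (1 / (64 * J) * ρ x y) = m * (1 / (128 * J) * ρ x y) +
      m * (1 / (128 * J) * ρ x y) := by field_simp; ring
  linarith

end smooth

lemma pow_quarter {J : ℕ} (hp : 1 ≤ p) (hJ : 1 ≤ J) {t : ℝ} (ht : 0 ≤ t) :
    (1 / (64 * (J:ℝ)) * t) ^ p ≤ (1 / 4) * ((1 / 4) ^ p * (t ^ p / (4 * J))) := by
  have hJ' : (1:ℝ) ≤ J := by exact_mod_cast hJ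
  have e : 1 / (64 * (J:ℝ)) * t = (1 / 4) * (t * (1 / (16 * J))) := by
    field_simp; ring
  rw [e, Real.mul_rpow (by norm_num) (by positivity), Real.mul_rpow ht (by positivity)]
  have h4 : (1 / (16 * (J:ℝ))) ^ p ≤ 1 / (16 * J) := by
    rw [Real.div_rpow (by norm_num) (by positivity), Real.one_rpow]
    exact one_div_le_one_div_of_le (by positivity)
      (rpow_ge_self_of_one_le hp (by linarith))
  calc (1 / 4 : ℝ) ^ p * (t ^ p * (1 / (16 * (J:ℝ))) ^ p)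
      ≤ (1 / 4 : ℝ) ^ p * (t ^ p * (1 / (16 * J))) := by
        apply mul_le_mul_of_nonneg_left _ (by positivity)
        exact mul_le_mul_of_nonneg_left h4 (by positivity)
    _ = (1 / 4) * ((1 / 4) ^ p * (t ^ p / (4 * J))) := by field_simp; ring

/-- choice of the number of colors -/
lemma exists_colors (hp : 1 ≤ p) {Q r a : ℝ} (hQ : 1 ≤ Q) (ha : 0 < a) (har : a ≤ r) :
    ∃ Bn : ℕ, 0 < Bn ∧ (Bn:ℝ) ≤ 8 * (8 * Q * r / a) ^ p ∧
      4 * r ^ p ≤ (Bn:ℝ) * (a / (8 * Q)) ^ p := by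
  have hp0 : 0 < p := by linarith
  have hr0 : 0 < r := by linarith
  set x0 : ℝ := 4 * (8 * Q * r / a) ^ p with hx0
  have hx1 : 1 ≤ x0 := by
    have h1 : 1 ≤ 8 * Q * r / a := by
      rw [le_div_iff₀ ha]
      nlinarith
    have h2 : 1 ≤ (8 * Q * r / a) ^ p := Real.one_le_rpow h1 hp0.le
    linarith
  refine ⟨⌈x0⌉₊, Nat.ceil_pos.2 (by linarith), ?_, ?_⟩
  · have := Nat.ceil_lt_add_one (by linarith : 0 ≤ x0)
    have e : 8 * (8 * Q * r / a) ^ p = 2 * x0 := by rw [hx0]; ring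
    rw [e]
    linarith
  · have e : 4 * r ^ p = x0 * (a / (8 * Q)) ^ p := by
      rw [hx0, mul_assoc, ← Real.mul_rpow (by positivity) (by positivity)]
      congr 2
      field_simp
    rw [e]
    exact mul_le_mul_of_nonneg_right (Nat.le_ceil x0) (by positivity)

/-- raw lower bound in `ℓ_p` form -/
lemma raw_lower (hp : 1 ≤ p) (hρ : ∀ x y, ρ x y = lp p (fun ω => F x ω - F y ω))
    (h : PseudoD ρ) {v0 : ℝ} {κ A J Bn : ℕ} (hv : 0 < v0) (hκ : 1 ≤ κ)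
    (hA : 2 * Real.log (Fintype.card X) ≤ A) (hJ : 1 ≤ J) {s V r a Q : ℝ} (hs : 0 < s)
    (hr0 : 0 < r) (ha : 0 < a) (hV : V = 16 * J * a * r / s) (hr : vA v0 κ A ≤ r)
    (hQ : 1 ≤ Q) (hB0 : 0 < Bn) (hB : 4 * r ^ p ≤ (Bn:ℝ) * (a / (8 * Q)) ^ p) {x y : X}
    (hxy : ρ x y ≤ v0 / (4 * κ)) (h9 : 9 / 10 * s ≤ ρ x y)
    (hlev : ρ x y ^ p / (2 * J) ≤ levelMass p a Q (fun ω => F x ω - F y ω)) :
    mass X Ω (Fin Bn) p A * (1 / (64 * J) * ρ x y) ≤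
      lp p (fun θ => Hf ρ F v0 κ A p V (⟨0, hB0⟩ : Fin Bn) x θ -
        Hf ρ F v0 κ A p V (⟨0, hB0⟩ : Fin Bn) y θ) := by
  have hp0 : 0 < p := by linarith
  have hJ' : (1:ℝ) ≤ J := by exact_mod_cast hJ
  have hρ0 : 0 < ρ x y := lt_of_lt_of_le (by positivity) h9
  have hBR : (0:ℝ) < Bn := by exact_mod_cast hB0
  have hV0 : 0 < V := by rw [hV]; positivity
  have hcardB : (Fintype.card (Fin Bn) : ℝ) = Bn := by rw [Fintype.card_fin]
  rw [le_lp_iff hp0 _ (mul_nonneg mass_nonneg (by positivity)),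
    Real.mul_rpow mass_nonneg (by positivity), mass_rpow hp0, hcardB]
  have h1 := Hf_lower hp hρ h hv hκ hA hV0 hr (⟨0, hB0⟩ : Fin Bn) ha hQ
    (by rw [hcardB]; exact hB) (x := x) (y := y) hxy (m := ρ x y ^ p / (4 * J)) (by positivity)
    (by
      have h2 := lost_le hp hJ hs ha hr0 hV h9
      have e : ρ x y ^ p / (2 * J) = ρ x y ^ p / (4 * J) + ρ x y ^ p / (4 * J) := by
        field_simp; ring
      linarith)
  rw [hcardB] at h1
  refine le_trans ?_ h1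
  refine le_trans (mul_le_mul_of_nonneg_left (pow_quarter hp hJ hρ0.le) (by positivity))
    (le_of_eq ?_)
  field_simp

/-- abstract form of the smoothed family: everything needed for sampling -/
theorem family_exists (hp : 1 ≤ p) (hρ : ∀ x y, ρ x y = lp p (fun ω => F x ω - F y ω))
    {K T J : ℕ} (hK : 1 ≤ K) (hT : 1 ≤ T) (hJ : 1 ≤ J)
    (hn : Real.log (Fintype.card X) ≤ 3 / 2 * K * T) {s a : ℝ} (hs : 0 < s) (ha : 0 < a)
    (has : a ≤ 4 ^ T * s) (hTbig : 87 * (K:ℝ) ^ 2 * T / 2 ^ T ≤ 9 / 20 / (64 * J)) :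
    ∃ (Θ : Type) (_ : Fintype Θ) (_ : Nonempty Θ) (b : X → Θ → ℝ) (B V : ℝ), 0 < B ∧ 0 < V ∧
      B ≤ 8 * (8 * 4 ^ T * (12 * K * (4 ^ T) ^ 2 * s) / a) ^ p ∧
      V = 16 * J * a * (12 * K * (4 ^ T) ^ 2 * s) / s ∧
      (∀ x y θ, |b x θ - b y θ| ≤
        (4 * V * 4 ^ T / s) * min (ρ x y) (12 * K * (4 ^ T) ^ 2 * s)) ∧
      (∀ x y, ∑ θ, |b x θ - b y θ| ^ p ≤ (Fintype.card Θ : ℝ) / B *
        (725 * K ^ 2 * min (ρ x y) (12 * K * (4 ^ T) ^ 2 * s)) ^ p) ∧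
      (∀ x y, 9 / 10 * s ≤ ρ x y → ρ x y ≤ 4 ^ T * s →
        ρ x y ^ p / (2 * J) ≤ levelMass p a (4 ^ T) (fun ω => F x ω - F y ω) →
        (Fintype.card Θ : ℝ) / B * (1 / (128 * J) * ρ x y) ^ p ≤
          ∑ θ, |b x θ - b y θ| ^ p) := by
  have hp0 : 0 < p := by linarith
  have h : PseudoD ρ := pseudoD_of_eq hp hρ
  have hK' : (1:ℝ) ≤ K := by exact_mod_cast hK
  have hT' : (1:ℝ) ≤ T := by exact_mod_cast hT
  have hJ' : (1:ℝ) ≤ J := by exact_mod_cast hJ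
  have hQ1 : (1:ℝ) ≤ 4 ^ T := one_le_pow₀ (by norm_num)
  have hr0 : 0 < 12 * K * (4 ^ T) ^ 2 * s := by positivity
  have hsr : s ≤ 12 * K * (4 ^ T) ^ 2 * s := by
    have : 1 ≤ 12 * (K:ℝ) * (4 ^ T) ^ 2 := by nlinarith [one_le_pow₀ hQ1 (n := 2)]
    nlinarith
  have hQsr : 4 ^ T * s ≤ 12 * K * (4 ^ T) ^ 2 * s := by
    have h1 : (4:ℝ) ^ T ≤ 12 * (K:ℝ) * (4 ^ T) ^ 2 := by nlinarith
    nlinarith
  have hκ1 : 1 ≤ 3 * K := by omega
  have hv : 0 < 4 * ((3 * K : ℕ) : ℝ) * 4 ^ T * s := by push_cast; positivity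
  have hvr : vA (4 * ((3 * K : ℕ) : ℝ) * 4 ^ T * s) (3 * K) (3 * K * T) ≤
      12 * K * (4 ^ T) ^ 2 * s := by
    refine (vA_top hv hκ1 T).trans (le_of_eq ?_)
    push_cast; ring
  have hv4 : (4 * ((3 * K : ℕ) : ℝ) * 4 ^ T * s) / (4 * ((3 * K : ℕ) : ℝ)) = 4 ^ T * s := by
    push_cast; field_simp
  obtain ⟨Bn, hB0, hBle, hBhash⟩ := exists_colors hp hQ1 ha (has.trans hQsr)
  have hV0 : 0 < 16 * J * a * (12 * K * (4 ^ T) ^ 2 * s) / s := by positivity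
  have hBR : (0:ℝ) < Bn := by exact_mod_cast hB0
  have hcardB : (Fintype.card (Fin Bn) : ℝ) = Bn := by rw [Fintype.card_fin]
  have hA2 : 2 * Real.log (Fintype.card X) ≤ ((3 * K * T : ℕ) : ℝ) := by
    push_cast; linarith
  have hm0 : 0 ≤ mass X Ω (Fin Bn) p (3 * K * T) := mass_nonneg
  have hmp := mass_rpow (X := X) (Ω := Ω) (β := Fin Bn) (A := 3 * K * T) hp0
  rw [hcardB] at hmp
  have hlip : ∀ x y, lp p (fun θ => Hf ρ F (4 * ((3 * K : ℕ) : ℝ) * 4 ^ T * s) (3 * K)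
      (3 * K * T) p (16 * J * a * (12 * K * (4 ^ T) ^ 2 * s) / s) (⟨0, hB0⟩ : Fin Bn) x θ -
      Hf ρ F (4 * ((3 * K : ℕ) : ℝ) * 4 ^ T * s) (3 * K)
      (3 * K * T) p (16 * J * a * (12 * K * (4 ^ T) ^ 2 * s) / s) (⟨0, hB0⟩ : Fin Bn) y θ) ≤
      (mass X Ω (Fin Bn) p (3 * K * T) * (29 * K)) * ρ x y := by
    intro x y
    refine (Hf_lip hp hρ h hv hκ1 _ _ x y).trans ?_
    apply mul_le_mul_of_nonneg_right _ (h.nonneg x y)
    apply mul_le_mul_of_nonneg_left _ hm0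
    push_cast; linarith
  have hnorm := Hf_norm (A := 3 * K * T) hp hρ h hv hκ1 hV0.le hvr (⟨0, hB0⟩ : Fin Bn)
  have hne : Nonempty ((Fin (3 * K * T) × (X ≃ Fin (Fintype.card X))) ×
      (Ω × Bool → Fin Bn)) := by
    have hA0 : 0 < 3 * K * T := by positivity
    exact ⟨((⟨0, hA0⟩, Fintype.equivFin X), fun _ => ⟨0, hB0⟩)⟩
  refine ⟨(Fin (3 * K * T) × (X ≃ Fin (Fintype.card X))) × (Ω × Bool → Fin Bn), inferInstance,
    hne, sm (kav ρ T (s / 4 ^ T)) (Hf ρ F (4 * ((3 * K : ℕ) : ℝ) * 4 ^ T * s) (3 * K)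
      (3 * K * T) p (16 * J * a * (12 * K * (4 ^ T) ^ 2 * s) / s) (⟨0, hB0⟩ : Fin Bn)),
    Bn, _, hBR, hV0, hBle, rfl, ?_, ?_, ?_⟩
  · exact fam_sup h hT hs hsr (fun x θ => Hf_nonneg hV0.le _ x θ) (fun x θ => Hf_le _ x θ) hV0
  · intro x y
    have hρ0 := h.nonneg x y
    rw [← hmp, ← Real.mul_rpow hm0 (by positivity), ← lp_le_iff hp0 _ (by positivity)]
    exact fam_upper hp h hK hT hs hm0 hr0.le hn hlip hnorm x y
  · intro x y h9 hQs hlev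
    have hρ0 : 0 < ρ x y := lt_of_lt_of_le (by positivity) h9
    rw [← hmp, ← Real.mul_rpow hm0 (by positivity), ← le_lp_iff hp0 _ (by positivity)]
    apply fam_lower hp h hK hT hJ hs hm0 hn hTbig hlip h9
    exact raw_lower hp hρ h hv hκ1 hA2 hJ hs hr0 ha rfl hvr hQ1 hB0 hBhash
      (by rw [hv4]; exact hQs) h9 hlev

end

end Vale.Agent.P249B
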