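import Mathlib
import Vale.Agent.Lib.P249B.Level

/-!
Sampling the family: the map of one level.
-/

open Finset

namespace Vale.Agent.P249B

variable {X Ω : Type} [Fintype X] [DecidableEq X] [Fintype Ω] [DecidableEq Ω]
  {p : ℝ} {F : X → Ω → ℝ} {ρ : X → X → ℝ}

/-- sampling a family of functions -/
theorem sample_family (hp : 1 ≤ p) {Θ : Type} [Fintype Θ] [Nonempty Θ] (b : X → Θ → ℝ)
    (τ : X → X → ℝ) (hτ : ∀ x y, 0 ≤ τ x y) (low : Set (X × X)) {B L0 U0 l0 : ℝ} (hB : 0 < B)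
    (hL0 : 0 < L0) (hl0 : 0 < l0) (hlU : l0 ≤ U0)
    (hsup : ∀ x y θ, |b x θ - b y θ| ≤ L0 * τ x y)
    (hup : ∀ x y, ∑ θ, |b x θ - b y θ| ^ p ≤ (Fintype.card Θ : ℝ) / B * (U0 * τ x y) ^ p)
    (hlow : ∀ e ∈ low, 0 < τ e.1 e.2 ∧
      (Fintype.card Θ : ℝ) / B * (l0 * τ e.1 e.2) ^ p ≤ ∑ θ, |b e.1 θ - b e.2 θ| ^ p)
    (N : ℕ) (hN : 4 * B * (L0 / l0) ^ p * Real.log (2 * (Fintype.card X) ^ 2 + 1) < N) :
    ∃ g : X → Fin N → ℝ, (∀ x y, lp p (fun i => g x i - g y i) ≤ 4 * U0 * τ x y) ∧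
      (∀ e ∈ low, l0 / 4 * τ e.1 e.2 ≤ lp p (fun i => g e.1 i - g e.2 i)) := by
  have hp0 : 0 < p := by linarith
  have hU0 : 0 < U0 := by linarith
  have hN0 : (0:ℝ) < N := by
    refine lt_of_le_of_lt ?_ hN
    have : 0 ≤ Real.log (2 * (Fintype.card X : ℝ) ^ 2 + 1) := Real.log_nonneg (by
      have : (0:ℝ) ≤ 2 * (Fintype.card X : ℝ) ^ 2 := by positivity
      linarith)
    positivity
  set Y : X × X → Θ → ℝ := fun e θ => (|b e.1 θ - b e.2 θ| / τ e.1 e.2) ^ p with hY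
  have hΘ : (0:ℝ) < Fintype.card Θ := by
    have : 0 < Fintype.card Θ := Fintype.card_pos
    exact_mod_cast this
  have hdiv : ∀ e θ, |b e.1 θ - b e.2 θ| ^ p = τ e.1 e.2 ^ p * Y e θ := by
    intro e θ
    rw [hY]
    simp only
    rw [← Real.mul_rpow (hτ _ _) (div_nonneg (abs_nonneg _) (hτ _ _))]
    rcases (hτ e.1 e.2).lt_or_eq with h1 | h1
    · congr 1
      field_simp
    · have h2 := hsup e.1 e.2 θ
      rw [← h1, mul_zero] at h2
      have h3 : |b e.1 θ - b e.2 θ| = 0 := le_antisymm h2 (abs_nonneg _)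
      rw [h3, ← h1]; simp
  have hsumY : ∀ e, ∑ θ, |b e.1 θ - b e.2 θ| ^ p = τ e.1 e.2 ^ p * ∑ θ, Y e θ := by
    intro e
    rw [Finset.mul_sum]
    exact Finset.sum_congr rfl fun θ _ => hdiv e θ
  obtain ⟨σ, hσ1, hσ2⟩ := exists_sample Y low (Λ := L0 ^ p) (U := U0 ^ p / B) (ℓ := l0 ^ p / B)
    (by positivity) (by positivity)
    (div_le_div_of_nonneg_right (Real.rpow_le_rpow hl0.le hlU hp0.le) hB.le)
    (fun e θ => Real.rpow_nonneg (div_nonneg (abs_nonneg _) (hτ _ _)) _)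
    (fun e θ => by
      refine Real.rpow_le_rpow (div_nonneg (abs_nonneg _) (hτ _ _)) ?_ hp0.le
      exact div_le_of_le_mul₀ (hτ _ _) hL0.le (hsup _ _ _))
    (fun e => by
      rcases (hτ e.1 e.2).lt_or_eq with h1 | h1
      · have h2 := hup e.1 e.2
        rw [hsumY, Real.mul_rpow hU0.le (hτ _ _)] at h2
        have h3 : 0 < τ e.1 e.2 ^ p := Real.rpow_pos_of_pos h1 p
        have h4 : τ e.1 e.2 ^ p * ∑ θ, Y e θ ≤ τ e.1 e.2 ^ p * (U0 ^ p / B * Fintype.card Θ) := by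
          refine h2.trans (le_of_eq ?_)
          field_simp
        exact le_of_mul_le_mul_left h4 h3
      · have h2 : ∀ θ, Y e θ = 0 := by
          intro θ
          rw [hY]
          simp only
          rw [← h1, div_zero, Real.zero_rpow hp0.ne']
        rw [Finset.sum_eq_zero fun θ _ => h2 θ]
        positivity)
    (fun e he => by
      obtain ⟨h1, h2⟩ := hlow e he
      rw [hsumY, Real.mul_rpow hl0.le h1.le] at h2
      have h3 : 0 < τ e.1 e.2 ^ p := Real.rpow_pos_of_pos h1 p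
      have h4 : τ e.1 e.2 ^ p * (l0 ^ p / B * Fintype.card Θ) ≤ τ e.1 e.2 ^ p * ∑ θ, Y e θ := by
        refine le_trans (le_of_eq ?_) h2
        field_simp
      exact le_of_mul_le_mul_left h4 h3)
    N (by
      refine lt_of_le_of_lt (le_of_eq ?_) hN
      rw [Fintype.card_prod, Real.div_rpow hL0.le hl0.le]
      have : 2 * ((Fintype.card X * Fintype.card X : ℕ) : ℝ) + 1 =
        2 * (Fintype.card X : ℝ) ^ 2 + 1 := by push_cast; ring
      rw [this]
      have : 0 < l0 ^ p := Real.rpow_pos_of_pos hl0 p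
      field_simp)
  set c : ℝ := (B / N) ^ (1 / p) with hc
  have hc0 : 0 ≤ c := by positivity
  have hcp : c ^ p = B / N := by
    rw [hc, ← Real.rpow_mul (by positivity), one_div, inv_mul_cancel₀ hp0.ne', Real.rpow_one]
  have hsum : ∀ x y, ∑ i, |c * b x (σ i) - c * b y (σ i)| ^ p =
      B / N * (τ x y ^ p * ∑ i, Y (x, y) (σ i)) := by
    intro x y
    rw [Finset.mul_sum, Finset.mul_sum]
    refine Finset.sum_congr rfl fun i _ => ?_
    rw [← mul_sub, abs_mul, Real.mul_rpow (abs_nonneg _) (abs_nonneg _), abs_of_nonneg hc0, hcp]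
    congr 1
    exact hdiv (x, y) (σ i)
  have h4 : (4:ℝ) ≤ 4 ^ p := rpow_ge_self_of_one_le hp (by norm_num)
  refine ⟨fun x i => c * b x (σ i), ?_, ?_⟩
  · intro x y
    rw [lp_le_iff hp0 _ (mul_nonneg (by positivity) (hτ _ _)), hsum]
    have h1 := hσ1 (x, y)
    have h2 : 0 ≤ τ x y ^ p := Real.rpow_nonneg (hτ _ _) _
    calc B / N * (τ x y ^ p * ∑ i, Y (x, y) (σ i))
        ≤ B / N * (τ x y ^ p * (4 * (U0 ^ p / B) * N)) := by
          apply mul_le_mul_of_nonneg_left _ (by positivity)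
          exact mul_le_mul_of_nonneg_left h1 h2
      _ = 4 * U0 ^ p * τ x y ^ p := by field_simp
      _ ≤ 4 ^ p * U0 ^ p * τ x y ^ p := by
          apply mul_le_mul_of_nonneg_right _ h2
          exact mul_le_mul_of_nonneg_right h4 (by positivity)
      _ = (4 * U0 * τ x y) ^ p := by
          rw [Real.mul_rpow (by positivity) (hτ _ _), Real.mul_rpow (by norm_num) hU0.le]
  · intro e he
    obtain ⟨h1, -⟩ := hlow e he
    have h2 := hσ2 e he
    rw [le_lp_iff hp0 _ (mul_nonneg (by positivity) (hτ _ _)), hsum]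
    have h3 : 0 ≤ τ e.1 e.2 ^ p := Real.rpow_nonneg (hτ _ _) _
    have h5 : (1 / 4 : ℝ) ^ p ≤ 1 / 4 := by
      rw [Real.div_rpow (by norm_num) (by norm_num), Real.one_rpow]
      exact one_div_le_one_div_of_le (by norm_num) h4
    calc (l0 / 4 * τ e.1 e.2) ^ p = (1 / 4) ^ p * (l0 ^ p * τ e.1 e.2 ^ p) := by
          rw [show l0 / 4 * τ e.1 e.2 = (1 / 4) * (l0 * τ e.1 e.2) by ring,
            Real.mul_rpow (by norm_num) (mul_nonneg hl0.le (hτ _ _)),
            Real.mul_rpow hl0.le (hτ _ _)]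
      _ ≤ (1 / 4) * (l0 ^ p * τ e.1 e.2 ^ p) := by
          apply mul_le_mul_of_nonneg_right h5
          positivity
      _ = B / N * (τ e.1 e.2 ^ p * (l0 ^ p / B / 4 * N)) := by field_simp
      _ ≤ B / N * (τ e.1 e.2 ^ p * ∑ i, Y (e.1, e.2) (σ i)) := by
          apply mul_le_mul_of_nonneg_left _ (by positivity)
          exact mul_le_mul_of_nonneg_left h2 h3

/-- the number of coordinates needed for one level -/
noncomputable def Nreq (p : ℝ) (n K J : ℕ) (Q : ℝ) : ℝ :=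
  32 * (9437184 * K ^ 2 * J ^ 2 * Q ^ 6) ^ p * Real.log (2 * (n:ℝ) ^ 2 + 1)

theorem level_exists (hp : 1 ≤ p) (hρ : ∀ x y, ρ x y = lp p (fun ω => F x ω - F y ω))
    {K T J : ℕ} (hK : 1 ≤ K) (hT : 1 ≤ T) (hJ : 1 ≤ J)
    (hn : Real.log (Fintype.card X) ≤ 3 / 2 * K * T) {s a : ℝ} (hs : 0 < s) (ha : 0 < a)
    (has : a ≤ 4 ^ T * s) (hTbig : 87 * (K:ℝ) ^ 2 * T / 2 ^ T ≤ 9 / 20 / (64 * J))
    (N : ℕ) (hN : Nreq p (Fintype.card X) K J (4 ^ T) < N) :
    ∃ g : X → Fin N → ℝ,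
      (∀ x y, lp p (fun i => g x i - g y i) ≤
        2900 * K ^ 2 * min (ρ x y) (12 * K * (4 ^ T) ^ 2 * s)) ∧
      (∀ x y, 9 / 10 * s ≤ ρ x y → ρ x y ≤ 4 ^ T * s →
        ρ x y ^ p / (2 * J) ≤ levelMass p a (4 ^ T) (fun ω => F x ω - F y ω) →
        1 / (512 * J) * ρ x y ≤ lp p (fun i => g x i - g y i)) := by
  have hp0 : 0 < p := by linarith
  have h : PseudoD ρ := pseudoD_of_eq hp hρ
  have hK' : (1:ℝ) ≤ K := by exact_mod_cast hK
  have hJ' : (1:ℝ) ≤ J := by exact_mod_cast hJ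
  obtain ⟨Θ, i1, i2, b, B, V, hB, hV, hBle, hVeq, hsup, hup, hlow⟩ :=
    family_exists hp hρ hK hT hJ hn hs ha has hTbig
  have hQ1 : (1:ℝ) ≤ 4 ^ T := one_le_pow₀ (by norm_num)
  set Q : ℝ := 4 ^ T with hQ
  have hQ0 : 0 < Q := by linarith
  set r : ℝ := 12 * K * Q ^ 2 * s with hr
  have hr0 : 0 < r := by positivity
  have hQsr : Q * s ≤ r := by
    have h1 : Q ≤ 12 * (K:ℝ) * Q ^ 2 := by nlinarith
    rw [hr]
    nlinarith
  have hlog : 0 ≤ Real.log (2 * (Fintype.card X : ℝ) ^ 2 + 1) := Real.log_nonneg (by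
      have : (0:ℝ) ≤ 2 * (Fintype.card X : ℝ) ^ 2 := by positivity
      linarith)
  obtain ⟨g, hg1, hg2⟩ := sample_family hp b (fun x y => min (ρ x y) r)
    (fun x y => le_min (h.nonneg x y) hr0.le)
    {e : X × X | 9 / 10 * s ≤ ρ e.1 e.2 ∧ ρ e.1 e.2 ≤ Q * s ∧
      ρ e.1 e.2 ^ p / (2 * J) ≤ levelMass p a Q (fun ω => F e.1 ω - F e.2 ω)}
    (B := B) (L0 := 4 * V * Q / s) (U0 := 725 * K ^ 2) (l0 := 1 / (128 * J)) hB
    (by positivity) (by positivity)
    (by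
      have h1 : 1 / (128 * (J:ℝ)) ≤ 1 := by
        rw [div_le_one (by positivity)]; linarith
      have h2 : (1:ℝ) ≤ (K:ℝ) ^ 2 := one_le_pow₀ hK'
      linarith)
    hsup hup
    (fun e he => by
      obtain ⟨h1, h2, h3⟩ := he
      have h4 : min (ρ e.1 e.2) r = ρ e.1 e.2 := min_eq_left (h2.trans hQsr)
      simp only [h4]
      exact ⟨lt_of_lt_of_le (by positivity) h1, hlow _ _ h1 h2 h3⟩)
    N (by
      refine lt_of_le_of_lt ?_ hN
      unfold Nreq
      apply mul_le_mul_of_nonneg_right _ hlog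
      have e1 : 4 * V * Q / s / (1 / (128 * J)) = 8192 * J ^ 2 * a * r * Q / s ^ 2 := by
        rw [hVeq]; field_simp; ring
      rw [e1]
      calc 4 * B * (8192 * J ^ 2 * a * r * Q / s ^ 2) ^ p
          ≤ 4 * (8 * (8 * Q * r / a) ^ p) * (8192 * J ^ 2 * a * r * Q / s ^ 2) ^ p := by
            apply mul_le_mul_of_nonneg_right _ (by positivity)
            linarith
        _ = 32 * ((8 * Q * r / a) ^ p * (8192 * J ^ 2 * a * r * Q / s ^ 2) ^ p) := by ring
        _ = 32 * ((8 * Q * r / a) * (8192 * J ^ 2 * a * r * Q / s ^ 2)) ^ p := by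
            rw [Real.mul_rpow (by positivity) (by positivity)]
        _ = 32 * (9437184 * K ^ 2 * J ^ 2 * Q ^ 6) ^ p := by
            congr 2
            rw [hr]
            field_simp
            ring
        _ ≤ _ := le_rfl)
  refine ⟨g, ?_, ?_⟩
  · intro x y
    refine (hg1 x y).trans (le_of_eq ?_)
    ring
  · intro x y h1 h2 h3
    have h4 := hg2 (x, y) ⟨h1, h2, h3⟩
    have h5 : min (ρ x y) r = ρ x y := min_eq_left (h2.trans hQsr)
    simp only [h5] at h4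
    refine le_trans (le_of_eq ?_) h4
    field_simp
    ring

end Vale.Agent.P249B
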