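import Mathlib
import Vale.Agent.Lib.P249B.LevelMap

/-!
One metric scale: all levels together.
-/

open Finset

namespace Vale.Agent.P249B

variable {X Ω : Type} [Fintype X] [DecidableEq X] [Fintype Ω] [DecidableEq Ω]
  {p : ℝ} {F : X → Ω → ℝ} {ρ : X → X → ℝ}

omit [DecidableEq Ω] in
/-- pigeonhole over the levels -/
lemma exists_level (hp : 1 ≤ p) {J : ℕ} (hJ : 1 ≤ J) {Q s : ℝ} (hQ : 1 ≤ Q) (hs : 0 < s)
    (hM : 4 * (Fintype.card Ω : ℝ) ≤ Q ^ (J - 1)) (z : Ω → ℝ) (h9 : 9 / 10 * s ≤ lp p z)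
    (hQs : lp p z ≤ Q * s) :
    ∃ j : Fin J, lp p z ^ p / (2 * J) ≤ levelMass p (Q * s / Q ^ (j : ℕ)) Q z := by
  have hp0 : 0 < p := by linarith
  have hQ0 : 0 < Q := by linarith
  have hJ' : (0:ℝ) < J := by exact_mod_cast hJ
  set a : ℕ → ℝ := fun j => Q * s / Q ^ j with ha
  have ha0 : ∀ j, 0 < a j := fun j => by rw [ha]; positivity
  have hasucc : ∀ j, a j / Q = a (j + 1) := by
    intro j; simp only [ha]; rw [pow_succ]; field_simp
  have hnn : ∀ (x : ℝ), 0 ≤ |x| ^ p := fun x => Real.rpow_nonneg (abs_nonneg x) p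
  -- each coordinate
  have h1 : ∀ ω, |z ω| ^ p ≤ (∑ j ∈ range J,
      if a j / Q < |z ω| ∧ |z ω| ≤ a j then |z ω| ^ p else 0) + (a J) ^ p := by
    intro ω
    have hsumnn : ∀ j ∈ range J, 0 ≤ (if a j / Q < |z ω| ∧ |z ω| ≤ a j then |z ω| ^ p else 0) := by
      intro j _
      split_ifs
      · exact hnn _
      · exact le_rfl
    by_cases hsmall : |z ω| ≤ a J
    · have h2 := Real.rpow_le_rpow (abs_nonneg (z ω)) hsmall hp0.le
      have h3 := Finset.sum_nonneg hsumnn
      linarith
    · push Not at hsmall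
      have hex : ∃ j, a (j + 1) < |z ω| := by
        refine ⟨J - 1, ?_⟩
        have : J - 1 + 1 = J := by omega
        rw [this]; exact hsmall
      classical
      set j0 := Nat.find hex with hj0
      have hj1 : a (j0 + 1) < |z ω| := Nat.find_spec hex
      have hj2 : |z ω| ≤ a j0 := by
        by_cases h0 : j0 = 0
        · rw [h0]
          simp only [ha, pow_zero, div_one]
          exact (abs_le_lp hp0 z ω).trans hQs
        · have h3 := Nat.find_min hex (m := j0 - 1) (by omega)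
          push Not at h3
          have : j0 - 1 + 1 = j0 := by omega
          rwa [this] at h3
      have hj3 : j0 < J := by
        have : j0 ≤ J - 1 := by
          apply Nat.find_min' hex
          have : J - 1 + 1 = J := by omega
          rw [this]; exact hsmall
        omega
      have h4 := Finset.single_le_sum hsumnn (mem_range.2 hj3)
      rw [if_pos ⟨by rw [hasucc]; exact hj1, hj2⟩] at h4
      have : 0 ≤ (a J) ^ p := Real.rpow_nonneg (ha0 J).le _
      linarith
  have h2 : lp p z ^ p ≤ (∑ j : Fin J, levelMass p (a j) Q z) +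
      Fintype.card Ω * (a J) ^ p := by
    rw [lp_rpow hp0]
    refine (Finset.sum_le_sum fun ω _ => h1 ω).trans ?_
    rw [Finset.sum_add_distrib, Finset.sum_comm, Finset.sum_const, Finset.card_univ,
      nsmul_eq_mul, Finset.sum_range]
    unfold levelMass
    exact le_rfl
  have hlp0 : 0 < lp p z := lt_of_lt_of_le (by positivity) h9
  have h3 : Fintype.card Ω * (a J) ^ p ≤ lp p z ^ p / 2 := by
    rcases Nat.eq_zero_or_pos (Fintype.card Ω) with h0 | h0
    · rw [h0, Nat.cast_zero, zero_mul]; positivity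
    · have hM0 : (0:ℝ) < Fintype.card Ω := by exact_mod_cast h0
      have e1 : a J = s / Q ^ (J - 1) := by
        simp only [ha]
        have : J = (J - 1) + 1 := by omega
        conv_lhs => rw [this, pow_succ]
        field_simp
      have h4 : a J ≤ s / (4 * Fintype.card Ω) := by
        rw [e1]
        exact div_le_div_of_nonneg_left hs.le (by positivity) hM
      have h5 : s / (4 * Fintype.card Ω) = (9 / 10 * s) * (1 / (18 / 5 * Fintype.card Ω)) := by
        field_simp; norm_num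
      have h6 : (1 / (18 / 5 * (Fintype.card Ω : ℝ))) ^ p ≤ 1 / (18 / 5 * Fintype.card Ω) := by
        have hc1 : (1:ℝ) ≤ Fintype.card Ω := by exact_mod_cast h0
        rw [Real.div_rpow (by norm_num) (by positivity), Real.one_rpow]
        exact one_div_le_one_div_of_le (by positivity)
          (rpow_ge_self_of_one_le hp (by linarith))
      calc Fintype.card Ω * (a J) ^ p
          ≤ Fintype.card Ω * ((9 / 10 * s) ^ p * (1 / (18 / 5 * Fintype.card Ω))) := by
            apply mul_le_mul_of_nonneg_left _ hM0.le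
            refine (Real.rpow_le_rpow (ha0 J).le h4 hp0.le).trans ?_
            rw [h5, Real.mul_rpow (by positivity) (by positivity)]
            exact mul_le_mul_of_nonneg_left h6 (by positivity)
        _ = (9 / 10 * s) ^ p * (5 / 18) := by field_simp
        _ ≤ lp p z ^ p * (5 / 18) := by
            apply mul_le_mul_of_nonneg_right _ (by norm_num)
            exact Real.rpow_le_rpow (by positivity) h9 hp0.le
        _ ≤ _ := by
            have : 0 ≤ lp p z ^ p := by positivity
            linarith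
  by_contra hcon
  push Not at hcon
  have h4 : ∑ j : Fin J, levelMass p (a j) Q z < ∑ _j : Fin J, lp p z ^ p / (2 * J) := by
    apply Finset.sum_lt_sum_of_nonempty
    · haveI : Nonempty (Fin J) := ⟨⟨0, by omega⟩⟩
      exact univ_nonempty
    · intro j _
      exact hcon j
  rw [Finset.sum_const, Finset.card_univ, Fintype.card_fin, nsmul_eq_mul] at h4
  have h5 : (J:ℝ) * (lp p z ^ p / (2 * J)) = lp p z ^ p / 2 := by field_simp
  rw [h5] at h4
  linarith

theorem lump_exists (hp : 1 ≤ p) (hρ : ∀ x y, ρ x y = lp p (fun ω => F x ω - F y ω))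
    {K T J : ℕ} (hK : 1 ≤ K) (hT : 1 ≤ T) (hJ : 1 ≤ J)
    (hn : Real.log (Fintype.card X) ≤ 3 / 2 * K * T) {s : ℝ} (hs : 0 < s)
    (hTbig : 87 * (K:ℝ) ^ 2 * T / 2 ^ T ≤ 9 / 20 / (64 * J))
    (hM : 4 * (Fintype.card Ω : ℝ) ≤ (4 ^ T) ^ (J - 1))
    (N : ℕ) (hN : Nreq p (Fintype.card X) K J (4 ^ T) < N) :
    ∃ g : X → Fin J × Fin N → ℝ,
      (∀ x y, lp p (fun i => g x i - g y i) ≤
        (2900 * K ^ 2 * J) * min (ρ x y) (12 * K * (4 ^ T) ^ 2 * s)) ∧
      (∀ x y, 9 / 10 * s ≤ ρ x y → ρ x y ≤ 4 ^ T * s →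
        1 / (512 * J) * ρ x y ≤ lp p (fun i => g x i - g y i)) := by
  have hp0 : 0 < p := by linarith
  have h : PseudoD ρ := pseudoD_of_eq hp hρ
  have hJ' : (1:ℝ) ≤ J := by exact_mod_cast hJ
  have hQ1 : (1:ℝ) ≤ 4 ^ T := one_le_pow₀ (by norm_num)
  have hQ0 : (0:ℝ) < 4 ^ T := by positivity
  have hlev : ∀ j : Fin J, ∃ g : X → Fin N → ℝ,
      (∀ x y, lp p (fun i => g x i - g y i) ≤
        2900 * K ^ 2 * min (ρ x y) (12 * K * (4 ^ T) ^ 2 * s)) ∧
      (∀ x y, 9 / 10 * s ≤ ρ x y → ρ x y ≤ 4 ^ T * s →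
        ρ x y ^ p / (2 * J) ≤ levelMass p (4 ^ T * s / (4 ^ T) ^ (j : ℕ)) (4 ^ T)
          (fun ω => F x ω - F y ω) →
        1 / (512 * J) * ρ x y ≤ lp p (fun i => g x i - g y i)) := by
    intro j
    apply level_exists hp hρ hK hT hJ hn hs (by positivity) _ hTbig N hN
    apply div_le_self (by positivity)
    exact one_le_pow₀ hQ1
  choose g hg1 hg2 using hlev
  refine ⟨fun x i => g i.1 x i.2, ?_, ?_⟩
  · intro x y
    have hmin : 0 ≤ min (ρ x y) (12 * K * (4 ^ T) ^ 2 * s) :=
      le_min (h.nonneg x y) (by positivity)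
    rw [lp_le_iff hp0 _ (by positivity), Fintype.sum_prod_type]
    have h1 : ∀ j : Fin J, ∑ i : Fin N, |g j x i - g j y i| ^ p ≤
        (2900 * K ^ 2 * min (ρ x y) (12 * K * (4 ^ T) ^ 2 * s)) ^ p := by
      intro j
      rw [← lp_le_iff hp0 (fun i => g j x i - g j y i) (by positivity)]
      exact hg1 j x y
    refine (Finset.sum_le_sum fun j _ => h1 j).trans ?_
    rw [Finset.sum_const, Finset.card_univ, Fintype.card_fin, nsmul_eq_mul]
    have h2 : (J:ℝ) ≤ (J:ℝ) ^ p := rpow_ge_self_of_one_le hp hJ'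
    calc (J:ℝ) * (2900 * K ^ 2 * min (ρ x y) (12 * K * (4 ^ T) ^ 2 * s)) ^ p
        ≤ (J:ℝ) ^ p * (2900 * K ^ 2 * min (ρ x y) (12 * K * (4 ^ T) ^ 2 * s)) ^ p :=
          mul_le_mul_of_nonneg_right h2 (by positivity)
      _ = _ := by
          rw [← Real.mul_rpow (by positivity) (by positivity)]
          congr 1; ring
  · intro x y h9 hQs
    obtain ⟨j, hj⟩ := exists_level hp hJ hQ1 hs hM (fun ω => F x ω - F y ω)
      (by rw [← hρ]; exact h9) (by rw [← hρ]; exact hQs)
    rw [← hρ] at hj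
    have h3 := hg2 j x y h9 hQs hj
    refine h3.trans ?_
    have hnn : 0 ≤ lp p (fun i => g j x i - g j y i) := lp_nonneg _ _
    rw [le_lp_iff hp0 _ hnn, Fintype.sum_prod_type, lp_rpow hp0]
    exact Finset.single_le_sum (f := fun j => ∑ i : Fin N, |g j x i - g j y i| ^ p)
      (fun j _ => sum_pow_nonneg p (fun i => g j x i - g j y i)) (mem_univ j)

end Vale.Agent.P249B
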