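import Mathlib
import Vale.Agent.Lib.P249B.Lump
import Vale.Agent.Lib.P249B.Gap

/-!
The map for one scale `s`, after the coordinates have been made gapped.
-/

open Finset

namespace Vale.Agent.P249B

variable {X Ω : Type} [Fintype X] [DecidableEq X] [Fintype Ω] [DecidableEq Ω]
  {p : ℝ}

omit [DecidableEq X] [DecidableEq Ω] in
lemma gap_map (hp : 1 ≤ p) (F : X → Ω → ℝ) {θ : ℝ} (hθ : 0 < θ) :
    ∃ F' : X → Ω → ℝ,
      (∀ x y, lp p (fun ω => F' x ω - F' y ω) ≤ lp p (fun ω => F x ω - F y ω)) ∧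
      (∀ x y, lp p (fun ω => F x ω - F y ω) < θ → lp p (fun ω => F' x ω - F' y ω) = 0) ∧
      (∀ x y, lp p (fun ω => F x ω - F y ω) ≤ lp p (fun ω => F' x ω - F' y ω) +
        Fintype.card Ω * (Fintype.card X * θ)) := by
  have hp0 : 0 < p := by linarith
  have h := fun ω => exists_gap (fun x => F x ω) hθ
  choose g hg1 hg2 hg3 using h
  refine ⟨fun x ω => g ω x, ?_, ?_, ?_⟩
  · intro x y
    exact lp_mono hp0 fun ω => hg1 ω x y
  · intro x y hxy
    have h1 : (fun ω => g ω x - g ω y) = fun _ => (0:ℝ) := by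
      funext ω
      have h2 : |F x ω - F y ω| < θ :=
        lt_of_le_of_lt (abs_le_lp hp0 (fun ω => F x ω - F y ω) ω) hxy
      rw [hg2 ω x y h2, sub_self]
    rw [h1, lp_zero hp0]
  · intro x y
    have h1 := lp_add_le hp (fun ω => g ω x - g ω y)
      (fun ω => (F x ω - F y ω) - (g ω x - g ω y))
    have h2 : (fun ω => (g ω x - g ω y) + ((F x ω - F y ω) - (g ω x - g ω y))) =
        fun ω => F x ω - F y ω := by
      funext ω; ring
    rw [h2] at h1
    have h3 : lp p (fun ω => (F x ω - F y ω) - (g ω x - g ω y)) ≤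
        Fintype.card Ω * (Fintype.card X * θ) := by
      rw [lp_le_iff hp0 _ (by positivity)]
      calc ∑ ω, |(F x ω - F y ω) - (g ω x - g ω y)| ^ p
          ≤ ∑ _ω : Ω, (Fintype.card X * θ) ^ p := by
            apply Finset.sum_le_sum
            intro ω _
            exact Real.rpow_le_rpow (abs_nonneg _) (hg3 ω x y) hp0.le
        _ = Fintype.card Ω * (Fintype.card X * θ) ^ p := by
            rw [Finset.sum_const, Finset.card_univ, nsmul_eq_mul]
        _ ≤ (Fintype.card Ω : ℝ) ^ p * (Fintype.card X * θ) ^ p := by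
            apply mul_le_mul_of_nonneg_right _ (by positivity)
            rcases Nat.eq_zero_or_pos (Fintype.card Ω) with h0 | h0
            · rw [h0, Nat.cast_zero, Real.zero_rpow hp0.ne']
            · exact rpow_ge_self_of_one_le hp (by exact_mod_cast h0)
        _ = _ := by
            rw [← Real.mul_rpow (by positivity) (by positivity)]
    linarith

/-- the map for the scale `s` -/
theorem scale_exists (hp : 1 ≤ p) (F : X → Ω → ℝ)
    {K T J : ℕ} (hK : 1 ≤ K) (hT : 1 ≤ T) (hJ : 1 ≤ J)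
    (hX : 0 < Fintype.card X) (hΩ : 0 < Fintype.card Ω)
    (hn : Real.log (Fintype.card X) ≤ 3 / 2 * K * T) {s : ℝ} (hs : 0 < s)
    (hTbig : 87 * (K:ℝ) ^ 2 * T / 2 ^ T ≤ 9 / 20 / (64 * J))
    (hM : 4 * (Fintype.card Ω : ℝ) ≤ (4 ^ T) ^ (J - 1))
    (N : ℕ) (hN : Nreq p (Fintype.card X) K J (4 ^ T) < N) :
    ∃ g : X → Fin J × Fin N → ℝ,
      (∀ x y, lp p (fun i => g x i - g y i) ≤
        (2900 * K ^ 2 * J) * lp p (fun ω => F x ω - F y ω)) ∧
      (∀ x y, lp p (fun i => g x i - g y i) ≤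
        (2900 * K ^ 2 * J) * ((12 * K * (4 ^ T) ^ 2) * s)) ∧
      (∀ x y, (10 * Fintype.card X * Fintype.card Ω) * lp p (fun ω => F x ω - F y ω) < s →
        lp p (fun i => g x i - g y i) = 0) ∧
      (∀ x y, s ≤ lp p (fun ω => F x ω - F y ω) →
        lp p (fun ω => F x ω - F y ω) ≤ 4 ^ T * s →
        1 / (512 * J) * (9 / 10 * lp p (fun ω => F x ω - F y ω)) ≤
          lp p (fun i => g x i - g y i)) := by
  have hX' : (0:ℝ) < Fintype.card X := by exact_mod_cast hX
  have hΩ' : (0:ℝ) < Fintype.card Ω := by exact_mod_cast hΩ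
  have hJ' : (1:ℝ) ≤ J := by exact_mod_cast hJ
  set W : ℝ := 10 * Fintype.card X * Fintype.card Ω with hW
  have hW0 : 0 < W := by positivity
  obtain ⟨F', h1, h2, h3⟩ := gap_map hp F (θ := s / W) (by positivity)
  obtain ⟨g, hg1, hg2⟩ := lump_exists (F := F')
    (ρ := fun x y => lp p (fun ω => F' x ω - F' y ω)) hp
    (fun _ _ => rfl) hK hT hJ hn hs hTbig hM N hN
  refine ⟨g, ?_, ?_, ?_, ?_⟩
  · intro x y
    refine (hg1 x y).trans ?_
    apply mul_le_mul_of_nonneg_left _ (by positivity)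
    exact (min_le_left _ _).trans (h1 x y)
  · intro x y
    refine (hg1 x y).trans ?_
    apply mul_le_mul_of_nonneg_left _ (by positivity)
    exact min_le_right _ _
  · intro x y hxy
    apply le_antisymm _ (lp_nonneg _ _)
    refine (hg1 x y).trans ?_
    have h4 : lp p (fun ω => F' x ω - F' y ω) = 0 := by
      apply h2
      rw [lt_div_iff₀ hW0]
      linarith
    simp only [h4]
    have h5 : min (0:ℝ) (12 * K * (4 ^ T) ^ 2 * s) ≤ 0 := min_le_left _ _
    have h6 : (0:ℝ) ≤ 2900 * K ^ 2 * J := by positivity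
    nlinarith
  · intro x y hxy hxy2
    have h4 := h3 x y
    have h5 : (Fintype.card Ω : ℝ) * (Fintype.card X * (s / W)) = s / 10 := by
      rw [hW]; field_simp
    rw [h5] at h4
    have h6 : 9 / 10 * lp p (fun ω => F x ω - F y ω) ≤ lp p (fun ω => F' x ω - F' y ω) := by
      linarith
    have h7 := hg2 x y (by
      show 9 / 10 * s ≤ lp p (fun ω => F' x ω - F' y ω)
      linarith) ((h1 x y).trans hxy2)
    refine le_trans ?_ h7
    apply mul_le_mul_of_nonneg_left h6 (by positivity)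

end Vale.Agent.P249B
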