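import Mathlib
import Vale.Agent.Lib.P249B.Scale
import Vale.Agent.Lib.P249B.Class

/-!
All scales together.
-/

open Finset

namespace Vale.Agent.P249B

variable {X Ω : Type} [Fintype X] [DecidableEq X] [Fintype Ω] [DecidableEq Ω]
  {p : ℝ}

/-- the scale of a positive number -/
lemma exists_scale {Q : ℝ} (hQ : 1 < Q) {d : ℝ} (hd : 0 < d) :
    ∃ l : ℤ, Q ^ l ≤ d ∧ d < Q ^ (l + 1) := by
  obtain ⟨l, hl⟩ := exists_mem_Ico_zpow hd hQ
  exact ⟨l, hl.1, hl.2⟩

theorem combine_exists (hp : 1 ≤ p) (F : X → Ω → ℝ)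
    {K T J K2 : ℕ} (hK : 1 ≤ K) (hT : 1 ≤ T) (hJ : 1 ≤ J) (hK2 : 1 ≤ K2)
    (hX : 0 < Fintype.card X) (hΩ : 0 < Fintype.card Ω)
    (hn : Real.log (Fintype.card X) ≤ 3 / 2 * K * T)
    (hTbig : 87 * (K:ℝ) ^ 2 * T / 2 ^ T ≤ 9 / 20 / (64 * J))
    (hM : 4 * (Fintype.card Ω : ℝ) ≤ (4 ^ T) ^ (J - 1))
    (hP1 : 240 * K * (Fintype.card X : ℝ) * Fintype.card Ω * (4 ^ T) ^ 2 ≤ (4 ^ T) ^ K2)
    (hP2 : 80000000 * (K:ℝ) ^ 3 * J ^ 2 * (4 ^ T) ^ 2 ≤ (4 ^ T) ^ K2)
    (N : ℕ) (hN : Nreq p (Fintype.card X) K J (4 ^ T) < N) :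
    ∃ g : X → Fin K2 × (Fin J × Fin N) → ℝ,
      ∀ x y, 1 / (512 * J) * (9 / 20) * lp p (fun ω => F x ω - F y ω) ≤
          lp p (fun i => g x i - g y i) ∧
        lp p (fun i => g x i - g y i) ≤
          K2 * (2 * (2900 * K ^ 2 * J)) * lp p (fun ω => F x ω - F y ω) := by
  classical
  have hp0 : 0 < p := by linarith
  have hX' : (1:ℝ) ≤ Fintype.card X := by exact_mod_cast hX
  have hΩ' : (1:ℝ) ≤ Fintype.card Ω := by exact_mod_cast hΩ
  have hJ' : (1:ℝ) ≤ J := by exact_mod_cast hJ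
  have hK' : (1:ℝ) ≤ K := by exact_mod_cast hK
  have hK2' : (1:ℝ) ≤ K2 := by exact_mod_cast hK2
  set Q : ℝ := 4 ^ T with hQdef
  have hQ4 : 4 ≤ Q := by
    calc (4:ℝ) = 4 ^ 1 := by norm_num
      _ ≤ 4 ^ T := pow_le_pow_right₀ (by norm_num) hT
  have hQ0 : 0 < Q := by linarith
  have hQ1 : 1 < Q := by linarith
  set d : X → X → ℝ := fun x y => lp p (fun ω => F x ω - F y ω) with hd
  have hd0 : ∀ x y, 0 ≤ d x y := fun x y => lp_nonneg _ _
  set W : ℝ := 10 * Fintype.card X * Fintype.card Ω with hW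
  have hW0 : 1 ≤ W := by rw [hW]; nlinarith
  set B : ℝ := 12 * K * Q ^ 2 with hB
  have hB0 : 0 ≤ B := by positivity
  set C1 : ℝ := 2900 * K ^ 2 * J with hC1
  have hC0 : 0 ≤ C1 := by positivity
  have hscale : ∀ l : ℤ, ∃ g : X → Fin J × Fin N → ℝ,
      (∀ x y, lp p (fun i => g x i - g y i) ≤ C1 * d x y) ∧
      (∀ x y, lp p (fun i => g x i - g y i) ≤ C1 * (B * Q ^ l)) ∧
      (∀ x y, W * d x y < Q ^ l → lp p (fun i => g x i - g y i) = 0) ∧
      (∀ x y, Q ^ l ≤ d x y → d x y ≤ Q * Q ^ l →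
        1 / (512 * J) * (9 / 10 * d x y) ≤ lp p (fun i => g x i - g y i)) := by
    intro l
    exact scale_exists hp F hK hT hJ hX hΩ hn (s := Q ^ l) (by positivity) hTbig hM N hN
  choose g hg1 hg2 hg3 hg4 using hscale
  -- the scales of the pairs
  have hsc : ∀ xy : X × X, ∃ l : ℤ, 0 < d xy.1 xy.2 → Q ^ l ≤ d xy.1 xy.2 ∧
      d xy.1 xy.2 < Q ^ (l + 1) := by
    intro xy
    by_cases h0 : 0 < d xy.1 xy.2
    · obtain ⟨l, hl⟩ := exists_scale hQ1 h0
      exact ⟨l, fun _ => hl⟩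
    · exact ⟨0, fun h => absurd h h0⟩
  choose L hL using hsc
  set S : Finset ℤ := Finset.univ.image (fun xy : X × X => L xy / (K2 : ℤ)) with hS
  set P : ℝ := Q ^ K2 with hP
  have hP2' : 2 ≤ P := by
    calc (2:ℝ) ≤ Q ^ 1 := by rw [pow_one]; linarith
      _ ≤ Q ^ K2 := pow_le_pow_right₀ hQ1.le hK2
  have hPq : ∀ (i : ℕ) (q : ℤ), Q ^ ((K2:ℤ) * q + i) = Q ^ i * P ^ q := by
    intro i q
    rw [hP, zpow_add₀ hQ0.ne', zpow_mul, zpow_natCast, zpow_natCast]
    ring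
  -- the classes
  set Φ : Fin K2 → X → Fin J × Fin N → ℝ :=
    fun i x k => ∑ q ∈ S, g ((K2:ℤ) * q + (i:ℕ)) x k with hΦ
  have hΦd : ∀ (i : Fin K2) x y, (fun k => Φ i x k - Φ i y k) =
      fun k => ∑ q ∈ S, (g ((K2:ℤ) * q + (i:ℕ)) x k - g ((K2:ℤ) * q + (i:ℕ)) y k) := by
    intro i x y
    funext k
    rw [hΦ, Finset.sum_sub_distrib]
  have hup : ∀ (i : Fin K2) x y, lp p (fun k => Φ i x k - Φ i y k) ≤ 2 * C1 * d x y := by
    intro i x y
    rw [hΦd]
    apply class_upper hp (fun q k => g ((K2:ℤ) * q + (i:ℕ)) x k - g ((K2:ℤ) * q + (i:ℕ)) y k)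
      (A := Q ^ (i:ℕ)) (P := P) (W := W) (B := B) (hd0 x y) hC0 hB0 (by positivity) hP2'
    · calc 2 * B * W = 240 * K * (Fintype.card X : ℝ) * Fintype.card Ω * Q ^ 2 := by
            rw [hB, hW]; ring
        _ ≤ P := hP1
    · intro q
      exact hg1 _ x y
    · intro q
      rw [← hPq]
      exact hg2 _ x y
    · intro q hq
      rw [← hPq] at hq
      exact hg3 _ x y hq
  have hlow : ∀ x y, 0 < d x y → ∃ i : Fin K2,
      1 / (512 * J) * (9 / 20) * d x y ≤ lp p (fun k => Φ i x k - Φ i y k) := by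
    intro x y hpos
    obtain ⟨hl1, hl2⟩ := hL (x, y) hpos
    simp only at hl1 hl2
    set l0 := L (x, y) with hl0
    have hK2z : (0:ℤ) < K2 := by exact_mod_cast hK2
    have hr0 : 0 ≤ l0 % (K2:ℤ) := Int.emod_nonneg _ hK2z.ne'
    have hr1 : l0 % (K2:ℤ) < K2 := Int.emod_lt_of_pos _ hK2z
    obtain ⟨r, hr⟩ := Int.eq_ofNat_of_zero_le hr0
    have hrK : r < K2 := by omega
    refine ⟨⟨r, hrK⟩, ?_⟩
    have hdec : (K2:ℤ) * (l0 / (K2:ℤ)) + (r:ℤ) = l0 := by
      have := Int.mul_ediv_add_emod l0 (K2:ℤ)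
      rw [hr] at this
      exact this
    rw [hΦd]
    have hAP : Q ^ r * P ^ (l0 / (K2:ℤ)) = Q ^ l0 := by
      rw [← hPq, hdec]
    apply class_lower hp (fun q k => g ((K2:ℤ) * q + r) x k - g ((K2:ℤ) * q + r) y k)
      (A := Q ^ r) (P := P) (W := W) (B := B) (C1 := C1) hC0 hB0 (by positivity) hP2'
      (by positivity) _ _ S (l0 / (K2:ℤ))
    · rw [hS]
      exact Finset.mem_image.2 ⟨(x, y), Finset.mem_univ _, rfl⟩
    · rw [hAP]; exact hl1
    · rw [hAP]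
      have h5 : Q ^ (l0 + 1) = Q ^ l0 * Q := zpow_add_one₀ hQ0.ne' l0
      have h6 : W * Q ≤ P := by
        refine le_trans ?_ hP1
        rw [hW]
        have h7 : Q ≤ Q ^ 2 := by nlinarith
        have h8 : 0 ≤ (Fintype.card X : ℝ) * Fintype.card Ω := by positivity
        calc 10 * (Fintype.card X : ℝ) * Fintype.card Ω * Q
            = 10 * ((Fintype.card X : ℝ) * Fintype.card Ω) * Q := by ring
          _ ≤ 240 * K * ((Fintype.card X : ℝ) * Fintype.card Ω) * Q ^ 2 := by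
              apply mul_le_mul _ h7 hQ0.le (by positivity)
              apply mul_le_mul_of_nonneg_right _ h8
              linarith
          _ = _ := by ring
      calc W * d x y < W * (Q ^ l0 * Q) := by
            rw [← h5]
            exact mul_lt_mul_of_pos_left hl2 (by linarith)
        _ = (W * Q) * Q ^ l0 := by ring
        _ ≤ P * Q ^ l0 := mul_le_mul_of_nonneg_right h6 (by positivity)
    · have h5 : 2 * C1 * B = 69600 * K ^ 3 * J * Q ^ 2 := by
        rw [hC1, hB]; ring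
      rw [h5]
      have h6 : 1 / (512 * J) * (9 / 20) * (80000000 * (K:ℝ) ^ 3 * J ^ 2 * Q ^ 2) ≤
          1 / (512 * J) * (9 / 20) * P := mul_le_mul_of_nonneg_left hP2 (by positivity)
      have h7 : 1 / (512 * J) * (9 / 20) * (80000000 * (K:ℝ) ^ 3 * J ^ 2 * Q ^ 2) =
          70312.5 * K ^ 3 * J * Q ^ 2 := by
        field_simp; norm_num
      rw [h7] at h6
      refine le_trans ?_ h6
      have h8 : 0 ≤ (K:ℝ) ^ 3 * J * Q ^ 2 := by positivity
      nlinarith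
    · have h5 := hg4 l0 x y hl1 (by rw [zpow_add_one₀ hQ0.ne'] at hl2; linarith)
      have h6 : 2 * (1 / (512 * J) * (9 / 20)) * d x y = 1 / (512 * J) * (9 / 10 * d x y) := by
        ring
      rw [h6]
      simp only [hdec]
      exact h5
    · intro q
      rw [← hPq]
      exact hg2 _ x y
    · intro q hq
      rw [← hPq] at hq
      exact hg3 _ x y hq
  refine ⟨fun x ik => Φ ik.1 x ik.2, fun x y => ⟨?_, ?_⟩⟩
  · rcases (hd0 x y).eq_or_lt with h0 | h0
    · show 1 / (512 * J) * (9 / 20) * d x y ≤ _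
      rw [← h0, mul_zero]
      exact lp_nonneg _ _
    · obtain ⟨i, hi⟩ := hlow x y h0
      refine hi.trans ?_
      have hnn : 0 ≤ lp p (fun k => Φ i x k - Φ i y k) := lp_nonneg _ _
      rw [le_lp_iff hp0 _ hnn, Fintype.sum_prod_type, lp_rpow hp0]
      exact Finset.single_le_sum (f := fun j => ∑ k, |Φ j x k - Φ j y k| ^ p)
        (fun j _ => sum_pow_nonneg p (fun k => Φ j x k - Φ j y k)) (mem_univ i)
  · rw [lp_le_iff hp0 _ (by have := hd0 x y; positivity), Fintype.sum_prod_type]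
    have h1 : ∀ i : Fin K2, ∑ k, |Φ i x k - Φ i y k| ^ p ≤ (2 * C1 * d x y) ^ p := by
      intro i
      rw [← lp_le_iff hp0 (fun k => Φ i x k - Φ i y k) (by have := hd0 x y; positivity)]
      exact hup i x y
    refine (Finset.sum_le_sum fun j _ => h1 j).trans ?_
    rw [Finset.sum_const, Finset.card_univ, Fintype.card_fin, nsmul_eq_mul]
    have h2 : (K2:ℝ) ≤ (K2:ℝ) ^ p := rpow_ge_self_of_one_le hp hK2'
    calc (K2:ℝ) * (2 * C1 * d x y) ^ p
        ≤ (K2:ℝ) ^ p * (2 * C1 * d x y) ^ p :=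
          mul_le_mul_of_nonneg_right h2 (by have := hd0 x y; positivity)
      _ = _ := by
          rw [← Real.mul_rpow (by positivity) (by have := hd0 x y; positivity)]
          congr 1; ring

end Vale.Agent.P249B
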