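import Mathlib

/-!
Choice of the parameter `T`.
-/

namespace Vale.Agent.P249B

/-- `T` is large in terms of `K` only -/
lemma exists_T0 (K : ℕ) : ∃ T0 : ℕ, 1 ≤ T0 ∧ ∀ T, T0 ≤ T →
    87 * (K:ℝ) ^ 2 * T / 2 ^ T ≤ 9 / 20 / (64 * ((2 * K + 2 : ℕ) : ℝ)) := by
  have h1 := tendsto_pow_const_mul_const_pow_of_abs_lt_one 1 (r := (1/2 : ℝ))
    (by rw [abs_of_pos (by norm_num)]; norm_num)
  have h2 := h1.const_mul (87 * (K:ℝ) ^ 2)
  rw [mul_zero] at h2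
  have h3 : (0:ℝ) < 9 / 20 / (64 * ((2 * K + 2 : ℕ) : ℝ)) := by positivity
  have h4 := (h2.eventually (gt_mem_nhds h3))
  rw [Filter.eventually_atTop] at h4
  obtain ⟨T0, hT0⟩ := h4
  refine ⟨T0 + 1, by omega, fun T hT => ?_⟩
  have h5 := hT0 T (by omega)
  have h6 : 87 * (K:ℝ) ^ 2 * T / 2 ^ T = 87 * (K:ℝ) ^ 2 * ((T:ℝ) ^ 1 * (1/2) ^ T) := by
    rw [one_div, inv_pow]; ring
  rw [h6]
  exact h5.le

/-- consequences of the largeness of `T` -/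
lemma T_large {K T : ℕ} (hK : 1 ≤ K) (hT : 1 ≤ T)
    (h : 87 * (K:ℝ) ^ 2 * T / 2 ^ T ≤ 9 / 20 / (64 * ((2 * K + 2 : ℕ) : ℝ))) :
    144000000 * (K:ℝ) ^ 4 * ((2 * K + 2 : ℕ) : ℝ) ^ 2 ≤ 4 ^ T := by
  have hK' : (1:ℝ) ≤ K := by exact_mod_cast hK
  have hT' : (1:ℝ) ≤ T := by exact_mod_cast hT
  set J : ℝ := ((2 * K + 2 : ℕ) : ℝ) with hJ
  have hJ0 : 0 < J := by rw [hJ]; positivity
  have h2 : (0:ℝ) < 2 ^ T := by positivity
  have h1 : 12000 * (K:ℝ) ^ 2 * J ≤ 2 ^ T := by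
    rw [div_le_div_iff₀ h2 (by positivity)] at h
    have h3 : (K:ℝ) ^ 2 * J * 1 ≤ (K:ℝ) ^ 2 * J * T :=
      mul_le_mul_of_nonneg_left hT' (by positivity)
    nlinarith
  calc 144000000 * (K:ℝ) ^ 4 * J ^ 2 = (12000 * (K:ℝ) ^ 2 * J) ^ 2 := by ring
    _ ≤ (2 ^ T) ^ 2 := pow_le_pow_left₀ (by positivity) h1 2
    _ = 4 ^ T := by
        rw [← pow_mul, mul_comm T 2, pow_mul]; norm_num

lemma exists_T {K : ℕ} (hK : 1 ≤ K) : ∃ A : ℝ, 1 ≤ A ∧ ∀ n : ℕ, 1 ≤ n → ∃ T : ℕ, 1 ≤ T ∧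
    87 * (K:ℝ) ^ 2 * T / 2 ^ T ≤ 9 / 20 / (64 * ((2 * K + 2 : ℕ) : ℝ)) ∧
    (n:ℝ) ≤ (4 ^ T) ^ K ∧ (4:ℝ) ^ T ≤ A * (n:ℝ) ^ ((1:ℝ) / K) := by
  obtain ⟨T0, hT0, hT0'⟩ := exists_T0 K
  have hK' : (0:ℝ) < K := by exact_mod_cast hK
  refine ⟨4 ^ (T0 + 1), one_le_pow₀ (by norm_num), fun n hn => ?_⟩
  have hn' : (0:ℝ) < n := by exact_mod_cast hn
  set t : ℝ := Real.logb 4 n / K with ht
  have ht0 : 0 ≤ t := by
    apply div_nonneg _ hK'.le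
    apply Real.logb_nonneg (by norm_num)
    exact_mod_cast hn
  refine ⟨T0 + ⌈t⌉₊, by omega, hT0' _ (by omega), ?_, ?_⟩
  · have h1 : (n:ℝ) = (4:ℝ) ^ (Real.logb 4 n) :=
      (Real.rpow_logb (by norm_num) (by norm_num) hn').symm
    have h2 : Real.logb 4 n = t * K := by rw [ht]; field_simp
    rw [← pow_mul, ← Real.rpow_natCast]
    conv_lhs => rw [h1, h2]
    apply Real.rpow_le_rpow_of_exponent_le (by norm_num)
    rw [Nat.cast_mul, Nat.cast_add]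
    have h3 : t ≤ ⌈t⌉₊ := Nat.le_ceil t
    have h4 : (0:ℝ) ≤ T0 := by positivity
    nlinarith
  · have h1 : (n:ℝ) ^ ((1:ℝ) / K) = (4:ℝ) ^ t := by
      rw [ht]
      conv_lhs => rw [← Real.rpow_logb (b := 4) (by norm_num) (by norm_num) hn']
      rw [← Real.rpow_mul (by norm_num)]
      congr 1
      ring
    rw [h1, pow_add, pow_succ, mul_assoc]
    apply mul_le_mul_of_nonneg_left _ (by positivity)
    have h2 : ((4:ℝ) ^ ⌈t⌉₊) ≤ (4:ℝ) ^ (1 + t) := by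
      rw [← Real.rpow_natCast]
      apply Real.rpow_le_rpow_of_exponent_le (by norm_num)
      have := Nat.ceil_lt_add_one ht0
      linarith
    refine h2.trans ?_
    rw [Real.rpow_add (by norm_num), Real.rpow_one]

lemma log_four_le : Real.log 4 ≤ 3 / 2 := by
  have h1 : Real.log 4 = 2 * Real.log 2 := by
    rw [show (4:ℝ) = 2 ^ 2 by norm_num, Real.log_pow]; norm_num
  have h2 := Real.log_two_lt_d9
  rw [h1]; linarith

lemma log_card_le {n K T : ℕ} (hn : 1 ≤ n) (h : (n:ℝ) ≤ (4 ^ T) ^ K) :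
    Real.log n ≤ 3 / 2 * K * T := by
  have hn' : (0:ℝ) < n := by exact_mod_cast hn
  have h1 := Real.log_le_log hn' h
  rw [Real.log_pow, Real.log_pow] at h1
  refine h1.trans ?_
  have h2 := log_four_le
  have h3 : (0:ℝ) ≤ K * T := by positivity
  nlinarith

end Vale.Agent.P249B
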