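import Mathlib
import Vale.Agent.Lib.P249B.Combine
import Vale.Agent.Lib.P249B.Params

/-!
The dimension bound for point sets in `ℓ_p^{n^2+1}`.
-/

open Finset

namespace Vale.Agent.P249B

variable {p : ℝ}

/-- the conditions of `combine_exists` hold for `J = 2K+2`, `K2 = 3K+3` -/
lemma params_ok {K T n : ℕ} (hK : 1 ≤ K) (hT : 1 ≤ T) (hn : 1 ≤ n)
    (hTbig : 87 * (K:ℝ) ^ 2 * T / 2 ^ T ≤ 9 / 20 / (64 * ((2 * K + 2 : ℕ) : ℝ)))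
    (hnQ : (n:ℝ) ≤ (4 ^ T) ^ K) :
    4 * ((n ^ 2 + 1 : ℕ) : ℝ) ≤ (4 ^ T) ^ (2 * K + 2 - 1) ∧
    240 * K * (n : ℝ) * ((n ^ 2 + 1 : ℕ) : ℝ) * (4 ^ T) ^ 2 ≤ (4 ^ T) ^ (3 * K + 3) ∧
    80000000 * (K:ℝ) ^ 3 * ((2 * K + 2 : ℕ) : ℝ) ^ 2 * (4 ^ T) ^ 2 ≤ (4 ^ T) ^ (3 * K + 3) := by
  have hK' : (1:ℝ) ≤ K := by exact_mod_cast hK
  have hn' : (1:ℝ) ≤ n := by exact_mod_cast hn
  have hbig := T_large hK hT hTbig
  set J : ℝ := ((2 * K + 2 : ℕ) : ℝ) with hJ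
  have hJ4 : 4 ≤ J := by
    rw [hJ]; push_cast; linarith
  set Q : ℝ := 4 ^ T with hQ
  have hK3 : 1 ≤ (K:ℝ) ^ 3 := one_le_pow₀ hK'
  have hK4 : (K:ℝ) ^ 3 ≤ (K:ℝ) ^ 4 := pow_le_pow_right₀ hK' (by norm_num)
  have hK1 : (K:ℝ) ≤ (K:ℝ) ^ 4 := by
    calc (K:ℝ) = (K:ℝ) ^ 1 := by ring
      _ ≤ _ := pow_le_pow_right₀ hK' (by norm_num)
  have hJ2 : 16 ≤ J ^ 2 := by nlinarith
  have hJ20 : 0 ≤ J ^ 2 := by positivity
  have hQa : 480 * (K:ℝ) ≤ Q := by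
    refine le_trans ?_ hbig
    have h1 : (K:ℝ) ^ 4 * 16 ≤ (K:ℝ) ^ 4 * J ^ 2 := mul_le_mul_of_nonneg_left hJ2 (by positivity)
    nlinarith
  have hQb : 80000000 * (K:ℝ) ^ 3 * J ^ 2 ≤ Q := by
    refine le_trans ?_ hbig
    have h1 : (K:ℝ) ^ 3 * J ^ 2 ≤ (K:ℝ) ^ 4 * J ^ 2 := mul_le_mul_of_nonneg_right hK4 hJ20
    have h2 : 0 ≤ (K:ℝ) ^ 3 * J ^ 2 := by positivity
    nlinarith
  have hQ8 : 8 ≤ Q := by linarith
  have hQ1 : 1 ≤ Q := by linarith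
  have hQ0 : 0 < Q := by linarith
  have hM : ((n ^ 2 + 1 : ℕ) : ℝ) ≤ 2 * (Q ^ K) ^ 2 := by
    push_cast
    have h1 : (n:ℝ) ^ 2 ≤ (Q ^ K) ^ 2 := pow_le_pow_left₀ (by positivity) hnQ 2
    have h2 : 1 ≤ (Q ^ K) ^ 2 := one_le_pow₀ (one_le_pow₀ hQ1)
    linarith
  refine ⟨?_, ?_, ?_⟩
  · have e1 : 2 * K + 2 - 1 = K * 2 + 1 := by omega
    have e2 : Q ^ (K * 2 + 1) = (Q ^ K) ^ 2 * Q := by rw [pow_succ, pow_mul]
    rw [e1, e2]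
    have h1 : 0 < (Q ^ K) ^ 2 := by positivity
    nlinarith
  · have e1 : Q ^ (3 * K + 3) = Q ^ K * (Q ^ K) ^ 2 * Q ^ 2 * Q := by
      ring
    rw [e1]
    have h1 : (n:ℝ) * ((n ^ 2 + 1 : ℕ) : ℝ) ≤ Q ^ K * (2 * (Q ^ K) ^ 2) :=
      mul_le_mul hnQ hM (by positivity) (by positivity)
    calc 240 * K * (n : ℝ) * ((n ^ 2 + 1 : ℕ) : ℝ) * Q ^ 2
        = (240 * K * Q ^ 2) * ((n : ℝ) * ((n ^ 2 + 1 : ℕ) : ℝ)) := by ring
      _ ≤ (240 * K * Q ^ 2) * (Q ^ K * (2 * (Q ^ K) ^ 2)) :=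
          mul_le_mul_of_nonneg_left h1 (by positivity)
      _ = (Q ^ K * (Q ^ K) ^ 2 * Q ^ 2) * (480 * K) := by ring
      _ ≤ _ := mul_le_mul_of_nonneg_left hQa (by positivity)
  · have e1 : 3 ≤ 3 * K + 3 := by omega
    calc 80000000 * (K:ℝ) ^ 3 * J ^ 2 * Q ^ 2 ≤ Q * Q ^ 2 :=
          mul_le_mul_of_nonneg_right hQb (by positivity)
      _ = Q ^ 3 := by ring
      _ ≤ _ := pow_le_pow_right₀ hQ1 e1

lemma distortion_const {K : ℕ} (hK : 1 ≤ K) :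
    ((3 * K + 3 : ℕ) : ℝ) * (2 * (2900 * K ^ 2 * ((2 * K + 2 : ℕ) : ℝ))) ≤
      640000000 * (K:ℝ) ^ 5 * (1 / (512 * ((2 * K + 2 : ℕ) : ℝ)) * (9 / 20)) := by
  have hK' : (1:ℝ) ≤ K := by exact_mod_cast hK
  set J : ℝ := ((2 * K + 2 : ℕ) : ℝ) with hJ
  have hJ1 : J ≤ 4 * K := by rw [hJ]; push_cast; linarith
  have hJ0 : 0 < J := by rw [hJ]; positivity
  have hK2 : ((3 * K + 3 : ℕ) : ℝ) ≤ 6 * K := by push_cast; linarith
  have e1 : 640000000 * (K:ℝ) ^ 5 * (1 / (512 * J) * (9 / 20)) = 562500 * K ^ 5 / J := by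
    field_simp; norm_num
  rw [e1, le_div_iff₀ hJ0]
  have h1 : J * J ≤ (4 * K) * (4 * K) := mul_le_mul hJ1 hJ1 hJ0.le (by positivity)
  calc ((3 * K + 3 : ℕ) : ℝ) * (2 * (2900 * K ^ 2 * J)) * J
      = ((3 * K + 3 : ℕ) : ℝ) * (5800 * K ^ 2 * (J * J)) := by ring
    _ ≤ (6 * (K:ℝ)) * (5800 * (K:ℝ) ^ 2 * ((4 * K) * (4 * K))) := by
        apply mul_le_mul hK2 _ (by positivity) (by positivity)
        exact mul_le_mul_of_nonneg_left h1 (by positivity)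
    _ = 556800 * (K:ℝ) ^ 5 := by ring
    _ ≤ 562500 * (K:ℝ) ^ 5 := by
        have : 0 ≤ (K:ℝ) ^ 5 := by positivity
        linarith

lemma log_bound {K n : ℕ} (hK : 1 ≤ K) (hn : 1 ≤ n) :
    Real.log (2 * (n:ℝ) ^ 2 + 1) ≤ 6 * K * (n:ℝ) ^ ((1:ℝ) / K) := by
  have hK' : (1:ℝ) ≤ K := by exact_mod_cast hK
  have hn' : (1:ℝ) ≤ n := by exact_mod_cast hn
  have hK0 : (0:ℝ) < 1 / K := by positivity
  have h1 : Real.log (2 * (n:ℝ) ^ 2 + 1) ≤ 2 * Real.log (3 * n) := by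
    have h2 : 2 * (n:ℝ) ^ 2 + 1 ≤ (3 * (n:ℝ)) ^ 2 := by nlinarith
    have h3 := Real.log_le_log (by positivity) h2
    rw [Real.log_pow] at h3
    exact_mod_cast h3
  have h2 := Real.log_le_rpow_div (x := 3 * (n:ℝ)) (by positivity) hK0
  have h3 : (3 * (n:ℝ)) ^ ((1:ℝ) / K) ≤ 3 * (n:ℝ) ^ ((1:ℝ) / K) := by
    rw [Real.mul_rpow (by norm_num) (by positivity)]
    apply mul_le_mul_of_nonneg_right _ (by positivity)
    calc (3:ℝ) ^ ((1:ℝ) / K) ≤ (3:ℝ) ^ (1:ℝ) := by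
          apply Real.rpow_le_rpow_of_exponent_le (by norm_num)
          rw [div_le_one (by linarith)]; exact hK'
      _ = 3 := Real.rpow_one 3
  have h4 : (3 * (n:ℝ)) ^ ((1:ℝ) / K) / (1 / K) = K * (3 * (n:ℝ)) ^ ((1:ℝ) / K) := by
    field_simp
  rw [h4] at h2
  have h5 : K * (3 * (n:ℝ)) ^ ((1:ℝ) / K) ≤ K * (3 * (n:ℝ) ^ ((1:ℝ) / K)) :=
    mul_le_mul_of_nonneg_left h3 (by positivity)
  linarith

lemma Nreq_bound (hp : 1 ≤ p) {K n : ℕ} (hK : 1 ≤ K) (hn : 1 ≤ n) {A Q : ℝ}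
    (hQ1 : 1 ≤ Q) (hQA : Q ≤ A * (n:ℝ) ^ ((1:ℝ) / K)) (J : ℕ) (hJ : 1 ≤ J) :
    Nreq p n K J Q ≤ 32 * (9437184 * K ^ 2 * J ^ 2 * A ^ 6) ^ p * (6 * K) *
      (n:ℝ) ^ ((6 * p + 1) / K) := by
  have hp0 : 0 < p := by linarith
  have hK' : (1:ℝ) ≤ K := by exact_mod_cast hK
  have hn' : (1:ℝ) ≤ n := by exact_mod_cast hn
  have hn0 : (0:ℝ) < n := by linarith
  set u : ℝ := (n:ℝ) ^ ((1:ℝ) / K) with hu
  have hu0 : 0 < u := by positivity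
  have hA0 : 0 < A := by
    by_contra hcon
    push Not at hcon
    have : A * u ≤ 0 := mul_nonpos_of_nonpos_of_nonneg hcon hu0.le
    linarith
  unfold Nreq
  have h1 : (9437184 * (K:ℝ) ^ 2 * J ^ 2 * Q ^ 6) ^ p ≤
      (9437184 * (K:ℝ) ^ 2 * J ^ 2 * A ^ 6) ^ p * (u ^ 6) ^ p := by
    rw [← Real.mul_rpow (by positivity) (by positivity)]
    apply Real.rpow_le_rpow (by positivity) _ hp0.le
    have h2 : Q ^ 6 ≤ A ^ 6 * u ^ 6 := by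
      rw [← mul_pow]
      exact pow_le_pow_left₀ (by linarith) hQA 6
    calc 9437184 * (K:ℝ) ^ 2 * J ^ 2 * Q ^ 6 ≤ 9437184 * (K:ℝ) ^ 2 * J ^ 2 * (A ^ 6 * u ^ 6) :=
          mul_le_mul_of_nonneg_left h2 (by positivity)
      _ = _ := by ring
  have h3 : (u ^ 6) ^ p * u = (n:ℝ) ^ ((6 * p + 1) / K) := by
    rw [hu, ← Real.rpow_natCast, ← Real.rpow_mul hn0.le, ← Real.rpow_mul hn0.le,
      ← Real.rpow_add hn0]
    congr 1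
    push_cast
    field_simp
  have h4 := log_bound hK hn
  rw [← hu] at h4
  have hlog0 : 0 ≤ Real.log (2 * (n:ℝ) ^ 2 + 1) := Real.log_nonneg (by nlinarith)
  calc 32 * (9437184 * (K:ℝ) ^ 2 * J ^ 2 * Q ^ 6) ^ p * Real.log (2 * (n:ℝ) ^ 2 + 1)
      ≤ 32 * ((9437184 * (K:ℝ) ^ 2 * J ^ 2 * A ^ 6) ^ p * (u ^ 6) ^ p) * (6 * K * u) := by
        apply mul_le_mul _ h4 hlog0 (by positivity)
        exact mul_le_mul_of_nonneg_left h1 (by norm_num)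
    _ = 32 * (9437184 * K ^ 2 * J ^ 2 * A ^ 6) ^ p * (6 * K) * ((u ^ 6) ^ p * u) := by ring
    _ = _ := by rw [h3]

/-- reindexing -/
lemma lp_reindex {ι κ : Type*} [Fintype ι] [Fintype κ] (e : ι ≃ κ) (v : κ → ℝ) :
    lp p (fun i => v (e i)) = lp p v := by
  unfold lp
  congr 1
  exact Equiv.sum_comp e (fun k => |v k| ^ p)

theorem core (hp : 1 ≤ p) {K : ℕ} (hK : 1 ≤ K) : ∃ C : ℝ, 0 < C ∧ ∀ n : ℕ, 1 ≤ n →
    ∃ d : ℕ, (d:ℝ) ≤ C * (n:ℝ) ^ ((6 * p + 1) / K) ∧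
      ∀ F : Fin n → Fin (n ^ 2 + 1) → ℝ, ∃ (g : Fin n → Fin d → ℝ) (c : ℝ), 0 < c ∧
        ∀ x y, c * lp p (fun ω => F x ω - F y ω) ≤ lp p (fun i => g x i - g y i) ∧
          lp p (fun i => g x i - g y i) ≤
            640000000 * (K:ℝ) ^ 5 * c * lp p (fun ω => F x ω - F y ω) := by
  obtain ⟨A, hA1, hA⟩ := exists_T hK
  have hK' : (1:ℝ) ≤ K := by exact_mod_cast hK
  have hA0 : 0 < A := by linarith
  set J : ℕ := 2 * K + 2 with hJ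
  have hJ1 : 1 ≤ J := by omega
  set K2 : ℕ := 3 * K + 3 with hK2
  set C0 : ℝ := 32 * (9437184 * (K:ℝ) ^ 2 * (J:ℝ) ^ 2 * A ^ 6) ^ p * (6 * K) with hC0
  refine ⟨K2 * (J * (C0 + 1)), by positivity, fun n hn => ?_⟩
  obtain ⟨T, hT1, hTbig, hnQ, hQA⟩ := hA n hn
  have hn' : (1:ℝ) ≤ n := by exact_mod_cast hn
  obtain ⟨hM, hP1, hP2⟩ := params_ok hK hT1 hn hTbig hnQ
  set N : ℕ := ⌊Nreq p n K J (4 ^ T)⌋₊ + 1 with hN
  have hNlt : Nreq p n K J (4 ^ T) < N := by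
    rw [hN]; push_cast; exact Nat.lt_floor_add_one _
  have hNr0 : 0 ≤ Nreq p n K J (4 ^ T) := by
    unfold Nreq
    have : 0 ≤ Real.log (2 * (n:ℝ) ^ 2 + 1) := Real.log_nonneg (by nlinarith)
    positivity
  refine ⟨K2 * (J * N), ?_, ?_⟩
  · have h1 : (N:ℝ) ≤ Nreq p n K J (4 ^ T) + 1 := by
      rw [hN]; push_cast
      have := Nat.floor_le hNr0
      linarith
    have h2 := Nreq_bound hp hK hn (one_le_pow₀ (by norm_num)) hQA J hJ1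
    rw [← hC0] at h2
    have h3 : (1:ℝ) ≤ (n:ℝ) ^ ((6 * p + 1) / K) :=
      Real.one_le_rpow hn' (by positivity)
    have h4 : (N:ℝ) ≤ (C0 + 1) * (n:ℝ) ^ ((6 * p + 1) / K) := by linarith
    push_cast
    calc (K2:ℝ) * (J * N) ≤ K2 * (J * ((C0 + 1) * (n:ℝ) ^ ((6 * p + 1) / K))) := by
          apply mul_le_mul_of_nonneg_left _ (by positivity)
          exact mul_le_mul_of_nonneg_left h4 (by positivity)
      _ = _ := by ring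
  · intro F
    have hcX : Fintype.card (Fin n) = n := Fintype.card_fin n
    have hcΩ : Fintype.card (Fin (n ^ 2 + 1)) = n ^ 2 + 1 := Fintype.card_fin _
    obtain ⟨g, hg⟩ := combine_exists (K2 := K2) hp F hK hT1 hJ1 (by omega)
      (by rw [hcX]; exact hn) (by rw [hcΩ]; omega)
      (by rw [hcX]; exact log_card_le hn hnQ) hTbig
      (by rw [hcΩ]; exact hM) (by rw [hcX, hcΩ]; exact hP1) hP2 N (by rw [hcX]; exact hNlt)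
    have hcard : Fintype.card (Fin K2 × (Fin J × Fin N)) = K2 * (J * N) := by
      simp only [Fintype.card_prod, Fintype.card_fin]
    set e : Fin (K2 * (J * N)) ≃ Fin K2 × (Fin J × Fin N) :=
      (Fintype.equivFinOfCardEq hcard).symm with he
    refine ⟨fun x i => g x (e i), 1 / (512 * (J:ℝ)) * (9 / 20), by positivity, fun x y => ?_⟩
    obtain ⟨h1, h2⟩ := hg x y
    have h3 : lp p (fun i => g x (e i) - g y (e i)) = lp p (fun k => g x k - g y k) :=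
      lp_reindex e (fun k => g x k - g y k)
    rw [h3]
    refine ⟨h1, h2.trans ?_⟩
    exact mul_le_mul_of_nonneg_right (distortion_const hK) (lp_nonneg _ _)

end Vale.Agent.P249B
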