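import Mathlib
import Vale.Agent.Lib.P249.Defs
import Vale.Agent.Lib.P249.Approx
import Vale.Agent.Lib.P249B.Core
import Vale.Agent.Lib.P249B.Cara

/-!
Finite subsets of `L_p(μ)`: reduction to finitely many coordinates, and the final bounds.
-/

open Finset MeasureTheory
open scoped ENNReal

namespace Vale.Agent.P249B

open Vale.Agent.P249

universe u

variable {p : ℝ}

/-- finite subsets of `L_p(μ)` are nearly isometric to subsets of `ℓ_p^{n^2+1}` -/
theorem rep_fin (hp : 1 ≤ p) {Ω : Type u} [MeasurableSpace Ω] {μ : Measure Ω}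
    (X : Finset (Lp ℝ (ENNReal.ofReal p) μ)) {n : ℕ} (hX : X.card = n) {η : ℝ} (hη : 0 < η) :
    ∃ (e : {x // x ∈ X} → Fin n) (G : Fin n → Fin (n ^ 2 + 1) → ℝ), ∀ x y,
      (1 - η) * ‖x.1 - y.1‖ ≤ lp p (fun k => G (e x) k - G (e y) k) ∧
      lp p (fun k => G (e x) k - G (e y) k) ≤ (1 + η) * ‖x.1 - y.1‖ := by
  classical
  have hp0 : 0 < p := by linarith
  set e : {x // x ∈ X} ≃ Fin n := X.equivFinOfCardEq hX with he
  obtain ⟨Kset, w, hw, hK⟩ := exists_finite_rep μ p hp (fun i : Fin n => (e.symm i).1)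
    (fun i j hij => e.symm.injective (Subtype.ext hij)) η hη
  obtain ⟨G, hG⟩ := caratheodory_lp hp
    (fun (a : Fin n) (k : {k // k ∈ Kset}) => (w k.1) ^ (1 / p) * k.1 a)
  refine ⟨e, G, fun x y => ?_⟩
  have h1 := hK (e x) (e y)
  simp only [Equiv.symm_apply_apply] at h1
  have h2 : lp p (fun k => G (e x) k - G (e y) k) =
      (∑ k ∈ Kset, w k * |k (e x) - k (e y)| ^ p) ^ (1 / p) := by
    unfold lp
    rw [hG, ← Finset.sum_coe_sort Kset]
    congr 1
    refine Finset.sum_congr rfl fun k _ => ?_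
    rw [← mul_sub, abs_mul, Real.mul_rpow (abs_nonneg _) (abs_nonneg _),
      abs_of_nonneg (Real.rpow_nonneg (hw k.1) _), ← Real.rpow_mul (hw k.1),
      one_div_mul_cancel hp0.ne', Real.rpow_one]
  rw [h2]
  exact h1

/-- an embedding of the representing point set gives an embedding of `X` -/
theorem embeds_of (hp : 1 ≤ p) {Ω : Type u} [MeasurableSpace Ω] {μ : Measure Ω}
    (X : Finset (Lp ℝ (ENNReal.ofReal p) μ)) {n d : ℕ} {η D1 D c : ℝ} (hη1 : η < 1)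
    (hη : 0 < η) (hc : 0 < c) (hD1 : 0 ≤ D1) (hD : D1 * (1 + η) ≤ D * (1 - η))
    (e : {x // x ∈ X} → Fin n) (G : Fin n → Fin (n ^ 2 + 1) → ℝ) (hG : ∀ x y,
      (1 - η) * ‖x.1 - y.1‖ ≤ lp p (fun k => G (e x) k - G (e y) k) ∧
      lp p (fun k => G (e x) k - G (e y) k) ≤ (1 + η) * ‖x.1 - y.1‖)
    (g : Fin n → Fin d → ℝ) (hg : ∀ x y,
      c * lp p (fun ω => G x ω - G y ω) ≤ lp p (fun i => g x i - g y i) ∧
      lp p (fun i => g x i - g y i) ≤ D1 * c * lp p (fun ω => G x ω - G y ω)) :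
    EmbedsIn p X d D := by
  classical
  haveI : Fact (1 ≤ ENNReal.ofReal p) := ⟨by
    rw [← ENNReal.ofReal_one]; exact ENNReal.ofReal_le_ofReal hp⟩
  refine ⟨fun x => if h : x ∈ X then g (e ⟨x, h⟩) else 0, c * (1 - η),
    mul_pos hc (by linarith), fun x hx y hy => ?_⟩
  simp only [dif_pos hx, dif_pos hy]
  have h1 := hG ⟨x, hx⟩ ⟨y, hy⟩
  have h2 := hg (e ⟨x, hx⟩) (e ⟨y, hy⟩)
  simp only at h1
  have h3 : lpNorm p (g (e ⟨x, hx⟩) - g (e ⟨y, hy⟩)) =
      lp p (fun i => g (e ⟨x, hx⟩) i - g (e ⟨y, hy⟩) i) := rfl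
  rw [h3]
  have hnn : 0 ≤ ‖x - y‖ := norm_nonneg _
  constructor
  · calc c * (1 - η) * ‖x - y‖ = c * ((1 - η) * ‖x - y‖) := by ring
      _ ≤ c * lp p (fun k => G (e ⟨x, hx⟩) k - G (e ⟨y, hy⟩) k) :=
          mul_le_mul_of_nonneg_left h1.1 hc.le
      _ ≤ _ := h2.1
  · calc lp p (fun i => g (e ⟨x, hx⟩) i - g (e ⟨y, hy⟩) i)
        ≤ D1 * c * lp p (fun k => G (e ⟨x, hx⟩) k - G (e ⟨y, hy⟩) k) := h2.2
      _ ≤ D1 * c * ((1 + η) * ‖x - y‖) := mul_le_mul_of_nonneg_left h1.2 (by positivity)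
      _ = (D1 * (1 + η)) * (c * ‖x - y‖) := by ring
      _ ≤ (D * (1 - η)) * (c * ‖x - y‖) := mul_le_mul_of_nonneg_right hD (by positivity)
      _ = _ := by ring

/-- `n^2+1` dimensions suffice for every distortion `D > 1` -/
theorem admits_sq (hp : 1 ≤ p) {D : ℝ} (hD : 1 < D) (n : ℕ) :
    Admits.{u} p D n (n ^ 2 + 1) := by
  intro Ω _ μ X hX
  set η : ℝ := (D - 1) / (D + 1) with hη
  have h0 : 0 < η := div_pos (by linarith) (by linarith)
  have h1 : η < 1 := by rw [hη, div_lt_one (by linarith)]; linarith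
  obtain ⟨e, G, hG⟩ := rep_fin hp X hX h0
  apply embeds_of hp X h1 h0 one_pos (D1 := 1) zero_le_one _ e G hG G
  · intro x y
    exact ⟨by rw [one_mul], by rw [mul_one, one_mul]⟩
  · have h2 : η * (D + 1) = D - 1 := by rw [hη]; field_simp
    nlinarith

/-- the bound for the distortions `1280000000 K^5` -/
theorem admits_core (hp : 1 ≤ p) {K : ℕ} (hK : 1 ≤ K) : ∃ C : ℝ, 0 < C ∧ ∀ n : ℕ, 1 ≤ n →
    ∃ d : ℕ, (d:ℝ) ≤ C * (n:ℝ) ^ ((6 * p + 1) / K) ∧
      ∀ D : ℝ, 1280000000 * (K:ℝ) ^ 5 ≤ D → Admits.{u} p D n d := by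
  obtain ⟨C, hC, h⟩ := core hp hK
  refine ⟨C, hC, fun n hn => ?_⟩
  obtain ⟨d, hd, hF⟩ := h n hn
  refine ⟨d, hd, fun D hD Ω _ μ X hX => ?_⟩
  obtain ⟨e, G, hG⟩ := rep_fin hp X hX (η := 1 / 3) (by norm_num)
  obtain ⟨g, c, hc, hg⟩ := hF G
  exact embeds_of hp X (by norm_num) (by norm_num) hc
    (D1 := 640000000 * (K:ℝ) ^ 5) (by positivity) (by linarith) e G hG g hg

/-- the least dimension is attained and bounded by any admissible one -/
lemma dimP_le {D : ℝ} {n d : ℕ} (h : Admits.{u} p D n d) :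
    Admits.{u} p D n (dimP.{u} p D n) ∧ dimP.{u} p D n ≤ d :=
  ⟨Nat.sInf_mem (s := {d : ℕ | Admits.{u} p D n d}) ⟨d, h⟩, Nat.sInf_le h⟩

/-- the power saving bound with explicit constants -/
theorem power_bound (hp : 1 ≤ p) {D : ℝ} (hD : 1 < D) : ∃ C : ℝ, 0 < C ∧ ∀ n : ℕ, 1 ≤ n →
    Admits.{u} p D n (dimP.{u} p D n) ∧
    (dimP.{u} p D n : ℝ) ≤ C * (n:ℝ) ^ (134 * (6 * p + 1) / D ^ ((1:ℝ) / 5)) := by
  have hD0 : 0 < D := by linarith
  set x : ℝ := D ^ ((1:ℝ) / 5) with hx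
  have hx0 : 0 < x := by positivity
  have hx5 : x ^ 5 = D := by
    rw [hx, ← Real.rpow_natCast, ← Real.rpow_mul hD0.le]
    norm_num
  rcases le_or_gt 67 x with hbig | hsmall
  · set K : ℕ := ⌊x / 67⌋₊ with hK
    have hy1 : 1 ≤ x / 67 := by rw [le_div_iff₀ (by norm_num)]; linarith
    have hK1 : 1 ≤ K := by rw [hK]; exact Nat.one_le_floor_iff _ |>.2 hy1
    have hKle : (K:ℝ) ≤ x / 67 := Nat.floor_le (by positivity)
    have hKge : x / 134 ≤ K := by
      have h1 : x / 67 < K + 1 := Nat.lt_floor_add_one _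
      have h2 : (1:ℝ) ≤ K := by exact_mod_cast hK1
      linarith
    have hK0 : (0:ℝ) < K := by exact_mod_cast hK1
    obtain ⟨C, hC, h⟩ := admits_core.{u} hp hK1
    refine ⟨C, hC, fun n hn => ?_⟩
    obtain ⟨d, hd, hadm⟩ := h n hn
    have hn' : (1:ℝ) ≤ n := by exact_mod_cast hn
    have h3 : Admits.{u} p D n d := by
      apply hadm
      calc 1280000000 * (K:ℝ) ^ 5 ≤ (67 * K) ^ 5 := by
            rw [mul_pow]
            apply mul_le_mul_of_nonneg_right _ (by positivity)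
            norm_num
        _ ≤ x ^ 5 := pow_le_pow_left₀ (by positivity) (by linarith) 5
        _ = D := hx5
    obtain ⟨h4, h5⟩ := dimP_le h3
    refine ⟨h4, ?_⟩
    calc (dimP.{u} p D n : ℝ) ≤ d := by exact_mod_cast h5
      _ ≤ C * (n:ℝ) ^ ((6 * p + 1) / K) := hd
      _ ≤ _ := by
          apply mul_le_mul_of_nonneg_left _ hC.le
          apply Real.rpow_le_rpow_of_exponent_le hn'
          rw [div_le_div_iff₀ hK0 hx0]
          have h6 : 0 ≤ 6 * p + 1 := by linarith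
          have h7 : x ≤ 134 * K := by linarith
          calc (6 * p + 1) * x ≤ (6 * p + 1) * (134 * K) := mul_le_mul_of_nonneg_left h7 h6
            _ = _ := by ring
  · refine ⟨2, by norm_num, fun n hn => ?_⟩
    obtain ⟨h4, h5⟩ := dimP_le (admits_sq.{u} hp hD n)
    refine ⟨h4, ?_⟩
    have hn' : (1:ℝ) ≤ n := by exact_mod_cast hn
    calc (dimP.{u} p D n : ℝ) ≤ ((n ^ 2 + 1 : ℕ) : ℝ) := by exact_mod_cast h5
      _ ≤ 2 * (n:ℝ) ^ (2:ℝ) := by
          rw [Real.rpow_two]; push_cast; nlinarith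
      _ ≤ _ := by
          apply mul_le_mul_of_nonneg_left _ (by norm_num)
          apply Real.rpow_le_rpow_of_exponent_le hn'
          rw [le_div_iff₀ hx0]
          nlinarith

end Vale.Agent.P249B
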